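import Crest.Agent.X277.BD.Cyc
import Crest.Agent.X277.BD.Num2
import Crest.Agent.X277.BD.BrA
import Crest.Agent.X262.Geo.Val
import Crest.Agent.X277.Cns.Mk
import Crest.Agent.X262.Geo.Dv
import Crest.Agent.X262.Sark27.Term
import Crest.Agent.X262.Surf.Defs2

-- ▼ part X262/Min33/Crv
section

/-!
# Row 262, MIN (helper33), part 1: b-divisors on curves over `ℂ`

* `exists_val`    : the places of a curve;
* `le_of_finrank` : `h⁰(c) ≤ deg c + 1`;
* `eq_zero_of_deg`, `exists_gen`, `Sec_le_span` : classes of degree zero and one.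
-/

set_option autoImplicit false

noncomputable section

namespace Crest.Agent.X262.Min33

open Crest.Agent.X277 Crest.Agent.X277.BD Crest.Agent.X277.BD.Cyc WithZero Module

section lin

variable {L : Type*} [Field L] [Algebra ℂ L] {Γ : Type*} [LinearOrderedCommGroupWithZero Γ]
  {v : Valuation L Γ}

/-- elements of value at most `γ` -/
def vle (v : Valuation L Γ) (hv : ∀ c : ℂ, v (algebraMap ℂ L c) ≤ 1) (γ : Γ) : Submodule ℂ L where
  carrier := {s | v s ≤ γ}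
  add_mem' ha hb := (v.map_add _ _).trans (max_le ha hb)
  zero_mem' := by simp
  smul_mem' c x hx := by
    change v (c • x) ≤ γ
    rw [Algebra.smul_def, map_mul]
    exact (mul_le_of_le_one_left' (hv c)).trans hx

theorem finrank_le_succ {S T : Submodule ℂ L} [FiniteDimensional ℂ T] {s : L}
    (h : S ≤ T ⊔ Submodule.span ℂ {s}) : finrank ℂ S ≤ finrank ℂ T + 1 := by
  have h1 := Submodule.finrank_add_le_finrank_add_finrank T (Submodule.span ℂ {s})
  have h2 : finrank ℂ (Submodule.span ℂ ({s} : Set L)) ≤ 1 := by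
    simpa using finrank_span_le_card (R := ℂ) ({s} : Set L)
  exact (Submodule.finrank_mono h).trans (h1.trans (by omega))

variable {v : Valuation L ℤᵐ⁰} {hv : ∀ c : ℂ, v (algebraMap ℂ L c) ≤ 1}

theorem le_exp_of_lt {x : ℤᵐ⁰} {o : ℤ} (h : x < exp o) : x ≤ exp (o - 1) := by
  rcases eq_or_ne x 0 with rfl | h0
  · exact zero_le
  · rw [← exp_log h0] at h ⊢
    rw [exp_lt_exp] at h
    rw [exp_le_exp]
    omega

theorem finrank_step (hr : ∀ f, v f ≤ 1 → ∃ c : ℂ, v (f - algebraMap ℂ L c) < 1)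
    (S : Submodule ℂ L) [FiniteDimensional ℂ S] {o : ℤ} (hS : ∀ s ∈ S, v s ≤ exp o) :
    finrank ℂ S ≤ finrank ℂ (S ⊓ vle v hv (exp (o - 1)) : Submodule ℂ L) + 1 := by
  by_cases h : ∃ s ∈ S, v s = exp o
  · obtain ⟨s, hs, h1⟩ := h
    have h0 : s ≠ 0 := fun h0 => by
      rw [h0, map_zero] at h1
      exact exp_ne_zero h1.symm
    refine finrank_le_succ (s := s) fun f hf => ?_
    obtain ⟨c, hc⟩ := hr (f / s) (by
      rw [map_div₀, h1]
      exact div_le_one_of_le₀ (hS f hf) zero_le)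
    have h2 : f - c • s = (f / s - algebraMap ℂ L c) * s := by
      rw [Algebra.smul_def]
      field_simp
    refine Submodule.mem_sup.2 ⟨f - c • s, ⟨sub_mem hf (S.smul_mem c hs), le_exp_of_lt ?_⟩, c • s,
      Submodule.smul_mem _ c (Submodule.mem_span_singleton_self s), sub_add_cancel _ _⟩
    rw [h2, map_mul, h1]
    exact mul_lt_of_lt_one_left exp_pos hc
  · refine finrank_le_succ (s := 0) fun f hf => Submodule.mem_sup_left ⟨hf, le_exp_of_lt ?_⟩
    exact lt_of_le_of_ne (hS f hf) fun h1 => h ⟨f, hf, h1⟩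

/-- a space of dimension `> r` contains an element which vanishes to order `r` -/
theorem exists_van (hv : ∀ c : ℂ, v (algebraMap ℂ L c) ≤ 1)
    (hr : ∀ f, v f ≤ 1 → ∃ c : ℂ, v (f - algebraMap ℂ L c) < 1) (r : ℕ) :
    ∀ (S : Submodule ℂ L) [FiniteDimensional ℂ S] (o : ℤ), (∀ s ∈ S, v s ≤ exp o) →
      r < finrank ℂ S → ∃ s ∈ S, s ≠ 0 ∧ v s ≤ exp (o - r) := by
  induction r with
  | zero =>
    intro S _ o hS h
    obtain ⟨s, hs, h0⟩ := Submodule.exists_mem_ne_zero_of_ne_bot (p := S) (by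
      rintro rfl
      simp at h)
    exact ⟨s, hs, h0, by simpa using hS s hs⟩
  | succ r ih =>
    intro S _ o hS h
    have h1 := finrank_step (hv := hv) hr S hS
    obtain ⟨s, hs, h0, h2⟩ := ih (S ⊓ vle v hv (exp (o - 1))) (o - 1) (fun s hs => hs.2) (by omega)
    refine ⟨s, hs.1, h0, h2.trans_eq ?_⟩
    congr 1
    push_cast
    ring

end lin

section crv

variable {κ : Type} [Field κ] [Algebra ℂ κ] [Algebra.EssFiniteType ℂ κ] {c : BD ℂ κ}

theorem surj_of_dim_zero (hd : dim ℂ κ = 0) : Function.Surjective (algebraMap ℂ κ) := by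
  have h1 : Algebra.trdeg ℂ κ = 0 := by rw [trdeg_eq_dim, hd, Nat.cast_zero]
  have := trdeg_eq_zero_iff.1 h1
  exact IsAlgClosed.algebraMap_bijective_of_isIntegral.2

/-- the places of a curve -/
theorem exists_val (hd : dim ℂ κ = 1) {W : RZ ℂ κ} (hW : W.1 ≠ ⊤) :
    ∃ (v : Valuation κ ℤᵐ⁰) (hv : ∀ c : ℂ, v (algebraMap ℂ κ c) ≤ 1), rz v hv = W ∧
      (∀ f, v f ≤ 1 → ∃ c : ℂ, v (f - algebraMap ℂ κ c) < 1) ∧
      ∀ a : BD ℂ κ, 0 ≤ a → ord v hv a ≤ bnum [a] := by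
  obtain ⟨M⟩ := (inferInstance : Nonempty (Mdl ℂ κ))
  obtain ⟨D, rfl⟩ := exists_pdiv_ctr (M := M) (d := 0) hd hW (AN.G2.PZ.not_dimLT_zero _)
  have h0 : dim ℂ (Rf (rzD D)) = 0 := dim_Rf hd D
  refine ⟨D.v, D.2.ov, rfl, fun f hf => ?_, fun a ha => ?_⟩
  · obtain ⟨c, hc⟩ := surj_of_dim_zero h0 ((plV (rzD D)).r f)
    refine ⟨c, ?_⟩
    have h1 : f ∈ (plV (rzD D)).V.1 := hf
    have h2 : algebraMap ℂ κ c ∈ (plV (rzD D)).V.1 := (rzD D).2 c
    have h3 := (Pl.r_eq_zero (sub_mem h1 h2)).1 (by rw [Pl.r_sub h1 h2, lnr_plV _ c, hc, sub_self])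
    have h4 := (v_rz_lt_iff D.v D.2.ov (x := f - algebraMap ℂ κ c) (y := 1)).1 (by
      rw [map_one]
      exact h3)
    rwa [map_one] at h4
  · have h1 := ord_mul_le (p := plV (rzD D)) (lnr_plV _) (surj_plV _) (by rw [h0]; exact hd)
      (v := D.v) (hv := D.2.ov) rfl D.2.unif ha (l := []) (by simp)
    have h2 : 0 < bnum ([] : List (BD ℂ (Rf (rzD D)))) := bnum_pos (by simp [h0]) (by simp)
    have h3 := ord_nonneg (v := D.v) (hv := D.2.ov) ha
    rw [List.map_nil] at h1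
    nlinarith

theorem exists_ne_top (hd : dim ℂ κ = 1) : ∃ W : RZ ℂ κ, W.1 ≠ ⊤ := by
  obtain ⟨M⟩ := (inferInstance : Nonempty (Mdl ℂ κ))
  by_contra h
  push Not at h
  have h1 : M.H = 0 := ext' fun W => by
    obtain rfl : W = RZ.top ℂ κ := Subtype.ext (h W)
    rw [val_top, val_zero]
  have h2 := M.H_pos
  rw [hd, h1, List.replicate_one, bnum_zero] at h2
  exact h2.ne rfl

theorem bnum_sub_pr (c : BD ℂ κ) (s : κ) : bnum [c - pr ℂ s] = bnum [c] := by
  rw [bnum_sub, bnum_pr, sub_zero]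

theorem le_of_van {v : Valuation κ ℤᵐ⁰} {hv : ∀ c : ℂ, v (algebraMap ℂ κ c) ≤ 1}
    (h : ∀ a : BD ℂ κ, 0 ≤ a → ord v hv a ≤ bnum [a]) {s : κ} (hs : s ∈ c.Sec) (h0 : s ≠ 0)
    {r : ℤ} (h1 : v s ≤ exp (ord v hv c - r)) : r ≤ bnum [c] := by
  have h2 := h _ (sub_nonneg.2 ((pr_le_iff h0).2 hs))
  rw [bnum_sub_pr, map_sub, ord_pr h0] at h2
  rw [← exp_log ((map_ne_zero v).2 h0), exp_le_exp] at h1
  omega

/-- `h⁰(c) ≤ deg c + 1` -/
theorem le_of_finrank (hd : dim ℂ κ = 1) {r : ℕ} (h : r < finrank ℂ c.Sec) :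
    (r : ℤ) ≤ bnum [c] := by
  obtain ⟨W, hW⟩ := exists_ne_top hd
  obtain ⟨v, hv, -, h1, h2⟩ := exists_val hd hW
  obtain ⟨s, hs, h0, h3⟩ := exists_van hv h1 r c.Sec (ord v hv c) (fun s hs => le_exp_ord hs) h
  exact le_of_van h2 hs h0 h3

theorem finrank_le (hd : dim ℂ κ = 1) (h : -1 ≤ bnum [c]) :
    (finrank ℂ c.Sec : ℤ) ≤ bnum [c] + 1 := by
  rcases hn : finrank ℂ c.Sec with _ | r
  · omega
  · have := le_of_finrank (c := c) hd (r := r) (by omega)
    omega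

theorem finrank_le' (hd : dim ℂ κ = 1) (c : BD ℂ κ) :
    (finrank ℂ c.Sec : ℤ) ≤ max (bnum [c] + 1) 0 := by
  rcases hn : finrank ℂ c.Sec with _ | r
  · omega
  · have := le_of_finrank (c := c) hd (r := r) (by omega)
    omega

/-- an effective class of degree zero is zero -/
theorem eq_zero_of_deg (hd : dim ℂ κ = 1) (h0 : 0 ≤ c) (h : bnum [c] = 0) : c = 0 :=
  ext' fun W => by
    by_cases hW : W.1 = ⊤
    · obtain rfl : W = RZ.top ℂ κ := Subtype.ext hW
      rw [val_top, val_zero]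
    · obtain ⟨v, hv, rfl, -, h2⟩ := exists_val hd hW
      exact ord_eq_zero.1 (le_antisymm (h ▸ h2 c h0) (ord_nonneg h0))


/-- a pencil of degree one has no base points -/
theorem exists_gen (hd : dim ℂ κ = 1) (h : bnum [c] = 1) {S : Submodule ℂ κ} (hS : S ≤ c.Sec)
    (h2 : 2 ≤ finrank ℂ S) (W : RZ ℂ κ) : ∃ s ∈ S, W.v s = c.val W := by
  have : FiniteDimensional ℂ S := Submodule.finiteDimensional_of_le hS
  by_cases hW : W.1 = ⊤
  · obtain rfl : W = RZ.top ℂ κ := Subtype.ext hW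
    obtain ⟨s, hs, h0⟩ := Submodule.exists_mem_ne_zero_of_ne_bot (p := S) (by
      rintro rfl
      simp at h2)
    exact ⟨s, hs, by rw [val_top, RZ.v_top h0]⟩
  obtain ⟨v, hv, rfl, h3, h4⟩ := exists_val hd hW
  by_contra h5
  push Not at h5
  obtain ⟨s, hs, h0, h6⟩ := exists_van hv h3 1 S (ord v hv c - 1) (fun s hs => le_exp_of_lt (by
    rw [exp_ord]
    exact lt_of_le_of_ne (le_vl (hS hs)) fun h7 => h5 s hs (eq_vl_iff.1 h7))) (by omega)
  have h7 := le_of_van h4 (hS hs) h0 (r := 2) (h6.trans_eq (by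
    congr 1
    push_cast
    ring))
  omega

/-- the sections of the multiples of a pencil of degree one -/
theorem Sec_le_span (hd : dim ℂ κ = 1) (h : bnum [c] = 1) (h1 : (1 : κ) ∈ c.Sec) {t : κ}
    (ht : t ∈ c.Sec) (ht' : ∀ a : ℂ, t ≠ algebraMap ℂ κ a) (n : ℕ) :
    (n • c).Sec ≤ Submodule.span ℂ (Set.range fun i : Fin (n + 1) => t ^ (i : ℕ)) := by
  have h2 : Transcendental ℂ t := fun h2 => by
    obtain ⟨a, ha⟩ := minpoly.mem_range_of_degree_eq_one ℂ t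
      (IsAlgClosed.degree_eq_one_of_irreducible ℂ (minpoly.irreducible h2.isIntegral))
    exact ht' a ha.symm
  have h3 : LinearIndependent ℂ fun i : Fin (n + 1) => t ^ (i : ℕ) := by
    have h4 : LinearIndependent ℂ fun i : ℕ => t ^ i := by
      have h5 := (Polynomial.basisMonomials ℂ).linearIndependent.map'
        (Polynomial.aeval t).toLinearMap
        (LinearMap.ker_eq_bot.2 (transcendental_iff_injective.1 h2))
      rwa [show (Polynomial.aeval t).toLinearMap ∘ Polynomial.basisMonomials ℂ =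
        fun i : ℕ => t ^ i from funext fun i => by simp] at h5
    exact h4.comp _ Fin.val_injective
  refine (Submodule.eq_of_le_of_finrank_le (Submodule.span_le.2 ?_) ?_).ge
  · rintro _ ⟨i, rfl⟩
    have h4 := mul_mem_Sec (pow_mem_Sec ht i) (pow_mem_Sec h1 (n - i))
    rwa [one_pow, mul_one, ← add_nsmul, Nat.add_sub_cancel' (Nat.lt_succ_iff.1 i.2)] at h4
  · rw [finrank_span_eq_card h3, Fintype.card_fin]
    have h4 := finrank_le (c := n • c) hd (by rw [bnum_nsmul, h]; omega)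
    rw [bnum_nsmul, h] at h4
    omega

end crv

end Crest.Agent.X262.Min33
end
end

-- ▼ part X262/Min33/Lift
section

/-!
# Row 262, MIN (helper33), part 2: curves on a smooth surface and lifting of sections

* `RRP P b` : the Riemann-Roch input;
* `Cv P κ`  : a prime divisor `E` of the surface `P` with its place;
* `Cv.adj`  : `E² + K E ≥ -2`;
* `Cv.lift` : sections on a `(-1)`-curve lift.
-/

set_option autoImplicit false
set_option linter.unusedSectionVars false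

noncomputable section

namespace Crest.Agent.X262.Min33

open Crest.Agent.X277 Crest.Agent.X277.BD Crest.Agent.X277.BD.Cyc Crest.Agent.X277.Lef
open Crest.Agent.X277.AN.G1 Crest.Agent.X277.BD.Br Module
open Crest.Agent.X277.Cns (Ov)
open scoped KaehlerDifferential

variable {F : Type} [Field F] [Algebra ℂ F] [Algebra.EssFiniteType ℂ F]

/-! ### models -/

section mdl

variable {P : PModel ℂ F} {a : BD ℂ F}

theorem va_oP (P : PModel ℂ F) : VA (oP P) := by
  refine va_mxf ⟨fun f => ?_⟩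
  obtain ⟨a, ha, c, hc, -, rfl⟩ := P.frac f
  have h1 : chart ℂ P.y 0 ≤ (qf ℂ P.y).toSubalgebra := Algebra.adjoin_le (by
    rintro _ ⟨j, rfl⟩
    exact div_mem_qf P.y 0 j)
  exact isAlgebraic_algebraMap (⟨a / c, div_mem (h1 ha) (h1 hc)⟩ : qf ℂ P.y)

theorem on_of_free {h : BD ℂ F} (hh : h ∈ On P) (h1 : Free (a + h)) (h2 : Free (-a + h)) :
    a ∈ On P := fun x => by
  obtain ⟨V, hV, hd⟩ := exists_dom x
  obtain ⟨s, hs, h3⟩ := h1.exists_gen V
  obtain ⟨t, ht, h4⟩ := h2.exists_gen V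
  obtain ⟨g, hg⟩ := hh x
  have h5 : At (a + h + (-a + h)) x (s * t) := by
    have h6 : At (a + h + (-a + h)) x (g * g) := by
      rw [add_add_add_comm, add_neg_cancel, zero_add]
      exact hg.add hg
    exact h6.of_dom hV hd (mul_mem_Sec hs ht) (by rw [map_mul, h3, h4, ← val_add])
  refine ⟨s / g, fun W hW => ?_⟩
  have h6 := h5 W hW
  rw [map_mul, val_add] at h6
  have h7 : W.v s = (a + h).val W := by
    refine le_antisymm (hs W) (not_lt.1 fun h7 => ?_)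
    exact ((mul_le_mul_right (ht W) _).trans_lt (mul_lt_mul_of_pos_right h7 (val_pos _ _))).ne h6
  rw [map_div₀, h7, hg W hW, val_add, mul_div_cancel_right₀ _ (val_ne _ _)]


theorem dim_eq {n : ℕ} (b : Basis (Fin n) F Ω[F⁄ℂ]) : dim ℂ F = n := by
  rw [dim, finrank_eq_card_basis b, Fintype.card_fin]

theorem HH_pos (P : PModel ℂ F) (hd : dim ℂ F = 2) : 0 < bnum [oP P, oP P] :=
  bnum_pos (by simp [hd]) (by simpa using ⟨free_oP.nef, (va_oP P).big⟩)

theorem bnum_eff {c : BD ℂ F} (ha : Eff a) (hc : Nef c) : 0 ≤ bnum [a, c] :=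
  ha.bnum_nonneg (by simpa using hc)

theorem finrank_eq_zero {c : BD ℂ F} (hc : Nef c) (h : bnum [a, c] < 0) :
    finrank ℂ a.Sec = 0 := by
  by_contra h0
  exact not_le.2 h (bnum_eff (eff_iff_finrank.2 (Nat.pos_of_ne_zero h0)) hc)

end mdl

/-- Riemann-Roch, Serre duality and Serre vanishing, in terms of `h⁰` -/
def RRP (P : PModel ℂ F) (b : Basis (Fin 2) F Ω[F⁄ℂ]) : Prop :=
  ∃ χ : BD ℂ F → ℤ,
    (∀ a ∈ On P, 2 * χ a = 2 * χ 0 + bnum [a, a] - bnum [a, kP P b]) ∧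
    (∀ a ∈ On P, χ a ≤ finrank ℂ a.Sec + finrank ℂ (kP P b - a).Sec) ∧
    ∀ a ∈ On P, ∃ m0 : ℕ, ∀ m, m0 ≤ m → finrank ℂ (a + m • oP P).Sec ≤ χ (a + m • oP P)

/-- a prime divisor of a surface -/
structure Cv (P : PModel ℂ F) (κ : Type) [Field κ] [Algebra ℂ κ] [Algebra.EssFiniteType ℂ κ] where
  /-- the divisor -/
  E : BD ℂ F
  /-- the place -/
  p : Pl ℂ F ℂ κ
  lnr : Lnr p
  dim1 : dim ℂ κ = 1
  on : E ∈ On P
  nonneg : 0 ≤ E
  pos : 1 < E.val p.V
  ker : ∀ a ∈ On P, ∀ s ∈ a.Sec, p.V.v s < a.val p.V → s ∈ (a - E).Sec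
  deg : ∀ a ∈ On P, bnum [a, E] = bnum [p.rs a]

namespace Cv

variable {P : PModel ℂ F} {κ : Type} [Field κ] [Algebra ℂ κ] [Algebra.EssFiniteType ℂ κ]
  (C : Cv P κ) {a : BD ℂ F} {s g : F} {x : Pts P} {b : Basis (Fin 2) F Ω[F⁄ℂ]}

theorem ker_iff (ha : a ∈ On P) (hs : s ∈ a.Sec) :
    s ∈ (a - C.E).Sec ↔ C.p.V.v s < a.val C.p.V := by
  refine ⟨fun h => (h C.p.V).trans_lt ?_, C.ker a ha s hs⟩
  rw [val_sub, div_lt_iff₀ (val_pos _ _)]
  exact lt_mul_of_one_lt_right (val_pos _ _) C.pos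

theorem sub_le (a : BD ℂ F) : (a - C.E).Sec ≤ a.Sec := Sec_mono (sub_le_self a C.nonneg)

theorem r_smul (c : ℂ) {f : F} (hf : f ∈ C.p.V.1) : C.p.r (c • f) = c • C.p.r f := by
  rw [Algebra.smul_def, Pl.r_mul (C.p.V.2 c) hf, C.lnr c, Algebra.smul_def]

theorem div_mem (hg : C.p.V.v g = a.val C.p.V) (hs : s ∈ a.Sec) : s / g ∈ C.p.V.1 :=
  (RZ.le_iff (ne_of_val hg)).1 (hg ▸ hs _)

/-- restriction of sections -/
def rho (hg : C.p.V.v g = a.val C.p.V) : a.Sec →ₗ[ℂ] κ where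
  toFun s := C.p.r (s / g)
  map_add' s t := by
    rw [Submodule.coe_add, add_div, Pl.r_add (C.div_mem hg s.2) (C.div_mem hg t.2)]
  map_smul' c s := by
    rw [Submodule.coe_smul, smul_div_assoc, C.r_smul c (C.div_mem hg s.2), RingHom.id_apply]

theorem r_eq_zero (ha : a ∈ On P) (hg : C.p.V.v g = a.val C.p.V) (hs : s ∈ a.Sec) :
    C.p.r (s / g) = 0 ↔ s ∈ (a - C.E).Sec := by
  rw [Pl.r_eq_zero (C.div_mem hg hs), C.ker_iff ha hs, map_div₀, hg, div_lt_one₀ (val_pos _ _)]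

theorem r_mem (hg : C.p.V.v g = a.val C.p.V) (hs : s ∈ a.Sec) :
    C.p.r (s / g) ∈ (C.p.res (a - pr ℂ g)).Sec :=
  Pl.r_mem_Sec (Pl.val_sub_gen hg) ((mem_Sec_sub_pr (ne_of_val hg)).2
    (by rwa [div_mul_cancel₀ _ (ne_of_val hg)]))

theorem range_le (hg : C.p.V.v g = a.val C.p.V) :
    LinearMap.range (C.rho hg) ≤ (C.p.res (a - pr ℂ g)).Sec := by
  rintro _ ⟨s, rfl⟩
  exact C.r_mem hg s.2

theorem finrank_rho (ha : a ∈ On P) (hg : C.p.V.v g = a.val C.p.V) :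
    finrank ℂ (LinearMap.range (C.rho hg)) + finrank ℂ (a - C.E).Sec = finrank ℂ a.Sec := by
  rw [← (C.rho hg).finrank_range_add_finrank_ker]
  have h1 : LinearMap.ker (C.rho hg) = (a - C.E).Sec.comap a.Sec.subtype :=
    Submodule.ext fun s => C.r_eq_zero ha hg s.2
  rw [h1, (Submodule.comapSubtypeEquivOfLe (C.sub_le a)).finrank_eq]

theorem deg_res (ha : a ∈ On P) (hg : C.p.V.v g = a.val C.p.V) :
    bnum [C.p.res (a - pr ℂ g)] = bnum [a, C.E] := by
  rw [C.deg a ha, (Pl.lin_rs hg).bnum_eq]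

theorem finrank_le (ha : a ∈ On P) :
    (finrank ℂ a.Sec : ℤ) ≤ finrank ℂ (a - C.E).Sec + max (bnum [a, C.E] + 1) 0 := by
  have hg := a.v_gen C.p.V
  have h1 := C.finrank_rho ha hg
  have h2 := Submodule.finrank_mono (C.range_le hg)
  have h3 := finrank_le' C.dim1 (C.p.res (a - pr ℂ (a.gen C.p.V)))
  rw [C.deg_res ha hg] at h3
  omega

theorem bnum_nef {c : BD ℂ F} (hc : Nef c) : 0 ≤ bnum [c, C.E] :=
  bnum_swap c C.E [] ▸ bnum_eff (eff_of_nonneg C.nonneg) hc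

theorem chi_sub {χ : BD ℂ F → ℤ}
    (h : ∀ a ∈ On P, 2 * χ a = 2 * χ 0 + bnum [a, a] - bnum [a, kP P b]) (ha : a ∈ On P) :
    2 * (χ a - χ (a - C.E)) = 2 * bnum [a, C.E] - bnum [C.E, C.E] - bnum [C.E, kP P b] := by
  have h1 := h a ha
  have h2 := h _ (sub_mem ha C.on)
  rw [bnum_sub, bnum_sub2, bnum_sub2, bnum_sub, bnum_swap C.E a] at h2
  omega

/-- the degree of a curve is positive as soon as it is numerically nontrivial -/
theorem deg_pos (ha : a ∈ On P) (h : bnum [a, C.E] ≠ 0) : 0 < bnum [oP P, C.E] := by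
  refine lt_of_le_of_ne (C.bnum_nef free_oP.nef) fun h0 => h ?_
  obtain ⟨m, h1⟩ := serre ha
  obtain ⟨m', h2⟩ := serre (neg_mem ha)
  have h3 := C.bnum_nef (h1 m le_rfl).nef
  have h4 := C.bnum_nef (h2 m' le_rfl).nef
  rw [bnum_add, bnum_nsmul, ← h0] at h3 h4
  rw [bnum_neg] at h4
  omega

theorem exists_large (hd : dim ℂ F = 2) (c : BD ℂ F) :
    ∃ m0 : ℕ, ∀ m : ℕ, m0 ≤ m → bnum [c - m • oP P, oP P] < 0 := by
  refine ⟨(bnum [c, oP P]).toNat + 1, fun m hm => ?_⟩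
  have h1 := HH_pos P hd
  rw [bnum_sub, bnum_nsmul]
  have h2 : bnum [c, oP P] < m := by omega
  nlinarith

/-- **adjunction inequality** -/
theorem adj (hR : RRP P b) : -2 ≤ bnum [C.E, C.E] + bnum [C.E, kP P b] := by
  obtain ⟨χ, h1, h2, h3⟩ := hR
  obtain ⟨m1, h4⟩ := h3 (-C.E) (neg_mem C.on)
  obtain ⟨m2, h5⟩ := exists_large (P := P) (dim_eq b) (kP P b)
  have ha : (m1 + m2) • oP P ∈ On P := nsmul_mem oP_mem _
  have h6 := C.finrank_le ha
  have h7 := C.chi_sub h1 ha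
  have h8 := h2 _ ha
  have h9 := h4 (m1 + m2) (by omega)
  rw [neg_add_eq_sub] at h9
  rw [finrank_eq_zero free_oP.nef (h5 _ (by omega))] at h8
  have h10 := C.bnum_nef ((free_oP (P := P)).nsmul (m1 + m2)).nef
  omega

variable {k : ℕ}

/-- **lifting of sections** from a `(-1)`-curve -/
theorem lift (hR : RRP P b) (hE : bnum [C.E, C.E] = -1) (hK : bnum [C.E, kP P b] = -1)
    (hk : bnum [oP P, C.E] = k) (ha : a ∈ On P) (hj : -1 ≤ bnum [a, C.E]) :
    ∃ m0 : ℕ, ∀ m : ℕ, m0 ≤ m →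
      bnum [a, C.E] + 1 + finrank ℂ (a + m • (oP P + k • C.E) - C.E).Sec ≤
        finrank ℂ (a + m • (oP P + k • C.E)).Sec := by
  obtain ⟨χ, h1, h2, h3⟩ := hR
  have hk0 : 0 < k := by
    have := C.deg_pos C.on (by omega)
    omega
  obtain ⟨m1, h4⟩ := h3 a ha
  obtain ⟨m2, h5⟩ := exists_large (P := P) (dim_eq b) (kP P b - a)
  refine ⟨m1 + m2 + 1, fun m hm => ?_⟩
  have hD : ∀ i : ℕ, a + m • oP P + i • C.E ∈ On P := fun i =>
    add_mem (add_mem ha (nsmul_mem oP_mem _)) (nsmul_mem C.on _)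
  have hd : ∀ i : ℕ, bnum [a + m • oP P + i • C.E, C.E] = bnum [a, C.E] + (m * k : ℕ) - i :=
    fun i => by
      rw [bnum_add, bnum_add, bnum_nsmul, bnum_nsmul, hk, hE]
      push_cast
      ring
  have hs : ∀ i : ℕ, a + m • oP P + (i + 1) • C.E - C.E = a + m • oP P + i • C.E := fun i => by
    rw [succ_nsmul]
    abel
  have key : ∀ i : ℕ, i ≤ m * k →
      (finrank ℂ (a + m • oP P + i • C.E).Sec : ℤ) ≤ χ (a + m • oP P + i • C.E) := by
    intro i
    induction i with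
    | zero =>
      intro _
      rw [zero_nsmul, add_zero]
      exact h4 m (by omega)
    | succ i ih =>
      intro hi
      have h6 := ih (by omega)
      have h7 := C.finrank_le (hD (i + 1))
      have h8 := C.chi_sub h1 (hD (i + 1))
      rw [hs, hd] at h7 h8
      omega
  obtain ⟨i, hi⟩ : ∃ i, m * k = i + 1 := Nat.exists_eq_succ_of_ne_zero (Nat.mul_pos (by omega) hk0).ne'
  have he : a + m • (oP P + k • C.E) = a + m • oP P + (i + 1) • C.E := by
    rw [← hi, nsmul_add, mul_nsmul', add_assoc]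
  have h7 := key i (by omega)
  have h8 := C.chi_sub h1 (hD (i + 1))
  have h9 := h2 _ (hD (i + 1))
  have h10 : finrank ℂ (kP P b - (a + m • oP P + (i + 1) • C.E)).Sec = 0 := by
    refine finrank_eq_zero (free_oP (P := P)).nef ?_
    have h11 := h5 m (by omega)
    have h12 := C.bnum_nef (free_oP (P := P)).nef
    rw [← sub_sub, ← sub_sub, bnum_sub, bnum_nsmul, bnum_swap C.E]
    have h13 : (0 : ℤ) ≤ (i + 1 : ℕ) * bnum [oP P, C.E] := mul_nonneg (Nat.cast_nonneg _) h12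
    omega
  rw [he, hs]
  rw [hs, hd] at h8
  omega

end Cv

end Crest.Agent.X262.Min33
end
end

-- ▼ part X262/Min33/Ctr
section

/-!
# Row 262, MIN (helper33), part 3: the contracting class of a `(-1)`-curve

* `Cv.at_off`, `Cv.exists_dom`, `Cv.at_of_res`, `Cv.gen_on` : points of the curve;
* `Ctr C G` : `G` is trivial on the curve and ample off it; `Ctr.free_add`, `exists_ctr`;
* `II C G n` : functions on the chart `G = 0` which vanish to order `n`; `Ctr.step`.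
-/

set_option autoImplicit false
set_option linter.unusedSectionVars false

noncomputable section

namespace Crest.Agent.X262.Min33

open Crest.Agent.X277 Crest.Agent.X277.BD Crest.Agent.X277.BD.Cyc Crest.Agent.X277.Lef
open Crest.Agent.X277.AN.G1 Crest.Agent.X277.BD.Br Module
open Crest.Agent.X277.Cns (Ov)
open scoped KaehlerDifferential

variable {F : Type} [Field F] [Algebra ℂ F] [Algebra.EssFiniteType ℂ F]
variable {P : PModel ℂ F} {κ : Type} [Field κ] [Algebra ℂ κ] [Algebra.EssFiniteType ℂ κ]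

namespace Cv

variable (C : Cv P κ) {a : BD ℂ F} {s g : F} {x : Pts P}

theorem at_one (ha : a ∈ On P) (hs : s ∈ a.Sec) (hx : At a x s) (h : C.p.V.v s < a.val C.p.V) :
    At C.E x 1 := fun V hV => by
  have h1 := C.ker a ha s hs h V
  rw [val_sub, hx V hV, le_div_iff₀ (val_pos _ _), mul_le_iff_le_one_right (val_pos _ _)] at h1
  rw [map_one]
  exact le_antisymm (C.nonneg V) h1

/-- off the curve the divisor is trivial -/
theorem at_off (hx : ¬ Ov x C.p.V.1) : At C.E x 1 := by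
  obtain ⟨i, hi⟩ := exists_pat x
  rcases (y_mem_Sec i C.p.V).lt_or_eq with h | h
  · exact C.at_one oP_mem (y_mem_Sec i) (at_y hi) h
  have hA : ∀ y ∈ P.A i, y ∈ C.p.V.1 := C.p.V.2.adjoin_le (by
    rintro _ ⟨j, rfl⟩
    exact (RZ.le_iff (P.y_ne i)).1 (h ▸ y_mem_Sec j C.p.V))
  obtain ⟨f, hf, h1⟩ := not_forall₂.1 hx
  obtain ⟨u, hu, c, hc, h2, h3⟩ := (mem_lp_iff hi).1 hf
  have h4 : C.p.V.v c < 1 := lt_of_le_of_ne (RZ.le_one_iff.2 (hA c hc)) fun h4 => h1 (by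
    rw [← RZ.le_one_iff, ← mul_one (C.p.V.v f), ← h4, ← map_mul, h3, h4]
    exact RZ.le_one_iff.2 (hA u hu))
  obtain ⟨N, hN⟩ := exists_tw_mem (a := 0) (f := c) (i := i) fun V hV => RZ.le_one_iff.2 (hV c hc)
  have h5 := hN N le_rfl
  rw [zero_add] at h5
  refine C.at_one (nsmul_mem oP_mem N) h5 (((at_y hi).nsmul N).mul_unit h2) ?_
  rw [map_mul, map_pow, h, val_nsmul]
  exact mul_lt_of_lt_one_left (pow_pos (val_pos _ _) N) h4

theorem exists_dom (hx : Ov x C.p.V.1) : ∃ W : RZ ℂ κ, Ov x (C.p.cm W).1 ∧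
    ∀ f ∈ (lp x).O, (C.p.cm W).v f = 1 ↔ ev f x ≠ 0 := by
  let ρ : (lp x).O →+* κ := C.p.φ.comp
    (((lp x).O.val : (lp x).O →+* F).codRestrict C.p.V.1.toSubring fun f => hx f f.2)
  have hρ : ∀ f : (lp x).O, ρ f = C.p.r f := fun f => (C.p.r_eq (hx f f.2)).symm
  have : (lp x).mx.IsPrime := RingHom.ker_isPrime _
  obtain ⟨W, h1, h2⟩ := Cns.exists_val ρ (lp x).mx fun f hf => by_contra fun h =>
    Pl.r_ne_zero_iff.2 (ev_ne_iff'.1 h _ hx) ((hρ f).symm.trans hf)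
  have hW : Cns.KV ℂ W := fun c => by
    have h3 := h1 (algebraMap ℂ _ c)
    rwa [hρ, Subalgebra.coe_algebraMap, C.lnr c] at h3
  have h3 : Ov x (C.p.cm ⟨W, hW⟩).1 := fun f hf => ⟨hx f hf, hρ ⟨f, hf⟩ ▸ h1 ⟨f, hf⟩⟩
  refine ⟨⟨W, hW⟩, h3, fun f hf => ⟨fun h => ?_, fun h => ev_ne_iff'.1 h _ h3⟩⟩
  have h4 : (C.p.cm ⟨W, hW⟩).v f = (C.p.cm ⟨W, hW⟩).v 1 := h.trans (map_one _).symm
  have h5 := (Pl.v_eq_iff ((RZ.eq_of_le (Pl.cm_le _) h4).trans (map_one _)) (map_one _)).1 h4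
  rw [Pl.r_one, map_one] at h5
  exact (h2 ⟨f, hf⟩).1 (Cns.un_iff_val.2 (hρ ⟨f, hf⟩ ▸ h5))

theorem at_of_res (ha : a ∈ On P) (h1 : a.val C.p.V = 1) (hx : Ov x C.p.V.1)
    (h : ∀ W : RZ ℂ κ, ∃ s ∈ a.Sec, W.v (C.p.r s) = (C.p.res a).val W) :
    ∃ s ∈ a.Sec, At a x s := by
  obtain ⟨W, h2, h3⟩ := C.exists_dom hx
  obtain ⟨s, hs, h4⟩ := h W
  obtain ⟨g, hg⟩ := ha x
  have h5 := hg _ h2
  refine ⟨s, hs, hg.of_dom h2 h3 hs (Eq.trans ?_ h5)⟩
  exact (Pl.v_eq_iff (Pl.r_ne_zero_iff.1 (ne_of_val h4)) (Pl.unit_of_gen h1 h5)).2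
    (h4.trans (Pl.val_res h1 h5))

theorem le_rho (ha : a ∈ On P) (hg : C.p.V.v g = a.val C.p.V) {j : ℤ}
    (h : j + finrank ℂ (a - C.E).Sec ≤ finrank ℂ a.Sec) :
    j ≤ finrank ℂ (LinearMap.range (C.rho hg)) := by
  have := C.finrank_rho ha hg
  omega

/-- generation along the curve in degree zero and one -/
theorem gen_on (ha : a ∈ On P) (hj : bnum [a, C.E] = 0 ∨ bnum [a, C.E] = 1)
    (h : bnum [a, C.E] + 1 + finrank ℂ (a - C.E).Sec ≤ finrank ℂ a.Sec) (hx : Ov x C.p.V.1) :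
    ∃ s ∈ a.Sec, At a x s := by
  have hg := a.v_gen C.p.V
  have h0 := a.gen_ne C.p.V
  have h1 := C.le_rho ha hg h
  have h2 := C.deg_res ha hg
  have h3 : ∀ W : RZ ℂ κ, ∃ t ∈ LinearMap.range (C.rho hg),
      W.v t = (C.p.res (a - pr ℂ (a.gen C.p.V))).val W := fun W => by
    rcases hj with hj | hj
    · obtain ⟨t, ht, h4⟩ := Submodule.exists_mem_ne_zero_of_ne_bot
        (p := LinearMap.range (C.rho hg)) fun h4 => by simp [h4, hj] at h1
      have h5 := eq_zero_of_deg C.dim1 (sub_nonneg.2 ((pr_le_iff h4).2 (C.range_le hg ht)))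
        (by rw [bnum_sub_pr, h2, hj])
      exact ⟨t, ht, by rw [sub_eq_zero.1 h5, val_pr h4]⟩
    · exact exists_gen C.dim1 (h2.trans hj) (C.range_le hg) (by omega) W
  obtain ⟨s, hs, h4⟩ := C.at_of_res (sub_mem ha (pr_mem _)) (Pl.val_sub_gen hg) hx fun W => by
    obtain ⟨_, ⟨s, rfl⟩, h4⟩ := h3 W
    exact ⟨s / a.gen C.p.V, (mem_Sec_sub_pr h0).2 (by rw [div_mul_cancel₀ _ h0]; exact s.2), h4⟩
  refine ⟨s * a.gen C.p.V, (mem_Sec_sub_pr h0).1 hs, ?_⟩
  simpa using h4.add (at_pr x h0)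

end Cv

/-- a class which is trivial on the curve and ample off the curve -/
structure Ctr (C : Cv P κ) (G : BD ℂ F) : Prop where
  neg : bnum [C.E, C.E] = -1
  on : G ∈ On P
  nonneg : 0 ≤ G
  val : G.val C.p.V = 1
  deg : bnum [G, C.E] = 0
  lin : ∃ (m n : ℕ) (w : F), w ≠ 0 ∧ G = (m + 1) • oP P + n • C.E + pr ℂ w
  lift : ∀ a ∈ On P, -1 ≤ bnum [a, C.E] → ∃ m0 : ℕ, ∀ m : ℕ, m0 ≤ m →
    bnum [a, C.E] + 1 + finrank ℂ (a + m • G - C.E).Sec ≤ finrank ℂ (a + m • G).Sec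

/-- functions on the chart `G = 0` which vanish to order `n` along the curve -/
def II (C : Cv P κ) (G : BD ℂ F) (n : ℕ) : Submodule ℂ F where
  carrier := {f | ∀ V : RZ ℂ F, G.val V = 1 → V.v f ≤ (-(n • C.E)).val V}
  add_mem' ha hb V hV := (V.v.map_add _ _).trans (max_le (ha V hV) (hb V hV))
  zero_mem' V _ := by simp
  smul_mem' c x hx V hV := (V.v_smul_le c x).trans (hx V hV)

variable {C : Cv P κ} {G a : BD ℂ F} {x : Pts P} {f g : F} {V : RZ ℂ F} {n : ℕ}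

theorem mul_mem_II {n' : ℕ} (hf : f ∈ II C G n) (hg : g ∈ II C G n') : f * g ∈ II C G (n + n') :=
  fun V hV => by
    rw [map_mul, add_nsmul, neg_add, val_add]
    exact mul_le_mul' (hf V hV) (hg V hV)

theorem II_anti {n' : ℕ} (h : n ≤ n') : II C G n' ≤ II C G n := fun _ hf V hV =>
  (hf V hV).trans (neg_le_neg (nsmul_le_nsmul_left C.nonneg h) V)

theorem mem_II_zero : f ∈ II C G 0 ↔ ∀ V : RZ ℂ F, G.val V = 1 → f ∈ V.1 :=
  forall₂_congr fun V _ => by rw [zero_nsmul, neg_zero, val_zero, RZ.le_one_iff]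

theorem mem_II {N : ℕ} (hf : f ∈ (N • G - n • C.E).Sec) : f ∈ II C G n := fun V hV => by
  simpa [hV] using hf V

theorem tw_II (hG : Free G) (h0 : 0 ≤ G) (hf : f ∈ II C G n) :
    ∃ N0 : ℕ, ∀ N, N0 ≤ N → f ∈ (N • G - n • C.E).Sec := by
  obtain ⟨N0, h⟩ := Geo.exists_tw (a := -(n • C.E)) (x := f) hG (nonneg_iff.1 h0) one_ne_zero
    fun V hV => hf V (hV.symm.trans (map_one _))
  exact ⟨N0, fun N hN => by simpa [neg_add_eq_sub] using h N hN⟩

namespace Ctr

variable (h : Ctr C G)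
include h

theorem res_eq : C.p.res G = 0 :=
  eq_zero_of_deg C.dim1 (Pl.res_nonneg h.val h.nonneg)
    (by rw [← (Pl.lin_rs_res h.val).bnum_eq, ← C.deg G h.on, h.deg])

theorem at_on (hx : Ov x C.p.V.1) : At G x 1 := by
  obtain ⟨W, h2, h3⟩ := C.exists_dom hx
  obtain ⟨g, hg⟩ := h.on x
  refine hg.of_dom h2 h3 (nonneg_iff.1 h.nonneg) (le_antisymm (nonneg_iff.1 h.nonneg _) ?_)
  rw [map_one]
  exact (Pl.val_res_le_iff h.val rfl (b := 0)).1 (by rw [h.res_eq, Pl.res_zero])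

theorem val_eq (hV : C.E.val V ≠ 1) : G.val V = 1 := by
  obtain ⟨x, hx⟩ := exists_ov' P V
  have h1 : Ov x C.p.V.1 := by_contra fun h1 => hV ((C.at_off h1 V hx).symm.trans (map_one _))
  exact (h.at_on h1 V hx).symm.trans (map_one _)

theorem nsmul (q : ℕ) : Ctr C ((q + 1) • G) where
  neg := h.neg
  on := nsmul_mem h.on _
  nonneg := nsmul_nonneg h.nonneg _
  val := by rw [val_nsmul, h.val, one_pow]
  deg := by rw [bnum_nsmul, h.deg, mul_zero]
  lin := by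
    obtain ⟨m, n, w, h1, rfl⟩ := h.lin
    exact ⟨q * m + q + m, (q + 1) * n, w ^ (q + 1), pow_ne_zero _ h1, by
      rw [pr_pow h1]; module⟩
  lift a ha hj := by
    obtain ⟨m0, h1⟩ := h.lift a ha hj
    exact ⟨m0, fun m hm => smul_smul m (q + 1) G ▸ h1 _ (by nlinarith)⟩

theorem deg_add (a : BD ℂ F) (m : ℕ) : bnum [a + m • G, C.E] = bnum [a, C.E] := by
  rw [bnum_add, bnum_nsmul, h.deg, mul_zero, add_zero]

theorem free_add (ha : a ∈ On P) (hj : bnum [a, C.E] = 0 ∨ bnum [a, C.E] = 1) :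
    ∃ m0 : ℕ, ∀ m, m0 ≤ m → Free (a + m • G) := by
  obtain ⟨m1, h1⟩ := h.lift a ha (by omega)
  obtain ⟨m2, h2⟩ := serre ha
  refine ⟨m1 + m2, fun m hm => free_of_at (P := P) fun x => ?_⟩
  by_cases hx : Ov x C.p.V.1
  · exact C.gen_on (add_mem ha (nsmul_mem h.on m)) (by rwa [h.deg_add])
      (by rw [h.deg_add]; exact h1 m (by omega)) hx
  obtain ⟨q, n, w, h3, rfl⟩ := h.lin
  obtain ⟨g, hg⟩ := add_mem ha (nsmul_mem oP_mem (m * (q + 1))) x
  obtain ⟨s, hs, h4⟩ := hg.exists_sec (h2 _ (by nlinarith))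
  have he : a + m • ((q + 1) • oP P + n • C.E + pr ℂ w) =
      a + (m * (q + 1)) • oP P + (m * n) • C.E + m • pr ℂ w := by module
  exact ⟨_, he ▸ mul_mem_Sec (mul_mem_Sec hs (pow_mem_Sec (nonneg_iff.1 C.nonneg) _))
    (pow_mem_Sec (mem_Sec_pr w) m),
    he ▸ (h4.add ((C.at_off hx).nsmul _)).add ((at_pr x h3).nsmul m)⟩

/-- the two coordinates -/
theorem exists_xy (hG : Free G) : ∃ (c : ℕ) (X Y : F), Free (c • G - C.E) ∧ X ∈ II C G 1 ∧
    Y ∈ II C G 1 ∧ ∀ n, ∀ f ∈ II C G n, ∃ q ∈ Submodule.span ℂ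
      (Set.range fun i : Fin (n + 1) => X ^ (n - i) * Y ^ (i : ℕ)), f - q ∈ II C G (n + 1) := by
  have hd : bnum [-C.E, C.E] = 1 := by rw [bnum_neg, h.neg, neg_neg]
  obtain ⟨m0, h0⟩ := h.free_add (neg_mem C.on) (Or.inr hd)
  obtain ⟨m1, h1⟩ := h.lift _ (neg_mem C.on) (by omega)
  have h2 := h0 (m0 + m1) (by omega)
  have h3 := h1 (m0 + m1) (by omega)
  have h4 := (h.deg_add (-C.E) (m0 + m1)).trans hd
  rw [neg_add_eq_sub] at h2 h3 h4
  generalize m0 + m1 = c at h2 h3 h4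
  have hD : c • G - C.E ∈ On P := sub_mem (nsmul_mem h.on c) C.on
  obtain ⟨X, hX, h5⟩ := h2.exists_gen C.p.V
  have hX0 := ne_of_val h5
  obtain ⟨Y, h6⟩ : ∃ Y : (c • G - C.E).Sec, ∀ u : ℂ, C.p.r (Y / X) ≠ algebraMap ℂ κ u := by
    by_contra! h6
    have h7 : LinearMap.range (C.rho h5) ≤ Submodule.span ℂ {1} := by
      rintro _ ⟨Y, rfl⟩
      obtain ⟨u, hu⟩ := h6 Y
      exact Submodule.mem_span_singleton.2 ⟨u, (Algebra.algebraMap_eq_smul_one u).symm.trans hu.symm⟩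
    have h8 := (Submodule.finrank_mono h7).trans_eq (finrank_span_singleton one_ne_zero)
    have h9 := C.le_rho hD h5 h3
    omega
  refine ⟨c, X, Y, h2, mem_II (N := c) (by rwa [one_nsmul]),
    mem_II (N := c) (by rw [one_nsmul]; exact Y.2), fun n f hf => ?_⟩
  obtain ⟨N, hN⟩ := tw_II hG h.nonneg hf
  have h7 := hN (N + n * c) (by omega)
  have he : (N + n * c) • G - n • C.E = n • (c • G - C.E) + N • G := by module
  have ha : (N + n * c) • G - n • C.E ∈ On P := sub_mem (nsmul_mem h.on _) (nsmul_mem C.on _)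
  have hg : C.p.V.v (X ^ n) = ((N + n * c) • G - n • C.E).val C.p.V := by
    rw [he, val_add, val_nsmul, val_nsmul, h.val, one_pow, mul_one, map_pow, h5]
  have h8 : C.p.res ((N + n * c) • G - n • C.E - pr ℂ (X ^ n)) =
      n • C.p.res (c • G - C.E - pr ℂ X) := by
    have h9 := Pl.val_sub_gen h5
    rw [show (N + n * c) • G - n • C.E - pr ℂ (X ^ n) = n • (c • G - C.E - pr ℂ X) + N • G by
      rw [pr_pow hX0]; module, Pl.res_add (by rw [val_nsmul, h9, one_pow])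
      (by rw [val_nsmul, h.val, one_pow]), Pl.res_nsmul h9, Pl.res_nsmul h.val, h.res_eq,
      nsmul_zero, add_zero]
  have h9 := Sec_le_span C.dim1 ((C.deg_res hD h5).trans h4)
    (by simpa [hX0] using C.r_mem h5 hX) (C.r_mem h5 Y.2) h6 n (h8 ▸ C.r_mem hg h7)
  obtain ⟨q, h10, h11⟩ := Submodule.span_le (p := ((Submodule.span ℂ (Set.range
    fun i : Fin (n + 1) => X ^ (n - i) * (Y : F) ^ (i : ℕ))).comap
      ((N + n * c) • G - n • C.E).Sec.subtype).map (C.rho hg)) |>.2 (by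
    rintro _ ⟨i, rfl⟩
    have hi : n - i + i = n := Nat.sub_add_cancel (Nat.lt_succ_iff.1 i.2)
    have h10 := mul_mem_Sec (pow_mem_Sec hX (n - i)) (pow_mem_Sec Y.2 i)
    rw [← add_nsmul, hi] at h10
    refine ⟨⟨_, Sec_mono (he ▸ le_add_of_nonneg_right (nsmul_nonneg h.nonneg N)) h10⟩,
      Submodule.subset_span ⟨i, rfl⟩, ?_⟩
    change C.p.r (X ^ (n - i) * Y ^ (i : ℕ) / X ^ n) = C.p.r (Y / X) ^ (i : ℕ)
    rw [← Pl.r_pow (C.div_mem h5 Y.2), div_pow]
    congr 1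
    rw [div_eq_div_iff (pow_ne_zero _ hX0) (pow_ne_zero _ hX0), mul_right_comm, ← pow_add, hi,
      mul_comm]) h9
  refine ⟨q, h10, mem_II (N := N + n * c) ?_⟩
  rw [succ_nsmul, ← sub_sub, ← C.r_eq_zero ha hg (sub_mem h7 q.2)]
  exact (map_sub (C.rho hg) ⟨f, h7⟩ q).trans (sub_eq_zero.2 h11.symm)

/-- the classes which descend -/
theorem mem_On_iff {P0 : PModel ℂ F} (h0 : G = oP P0) :
    a ∈ On P0 ↔ a ∈ On P ∧ bnum [a, C.E] = 0 := by
  constructor
  · intro ha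
    refine ⟨On_le_iff.2 (h0 ▸ h.on) ha, ?_⟩
    obtain ⟨m, h1⟩ := serre ha
    obtain ⟨m', h2⟩ := serre (neg_mem ha)
    have h3 := C.bnum_nef (h1 m le_rfl).nef
    have h4 := C.bnum_nef (h2 m' le_rfl).nef
    rw [← h0, h.deg_add] at h3 h4
    rw [bnum_neg] at h4
    omega
  · rintro ⟨ha, h1⟩
    obtain ⟨m, h2⟩ := h.free_add ha (Or.inl h1)
    obtain ⟨m', h3⟩ := h.free_add (neg_mem ha) (Or.inl (by rw [bnum_neg, h1, neg_zero]))
    exact on_of_free (nsmul_mem (h0 ▸ oP_mem) (m + m')) (h2 _ (by omega)) (h3 _ (by omega))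

end Ctr

theorem exists_ctr {b : Basis (Fin 2) F Ω[F⁄ℂ]} (hR : RRP P b) (hE : bnum [C.E, C.E] = -1)
    (hK : bnum [C.E, kP P b] = -1) : ∃ G, Ctr C G ∧ Free G := by
  obtain ⟨k, hk⟩ := Int.eq_ofNat_of_zero_le (C.bnum_nef (free_oP (P := P)).nef)
  obtain ⟨m, h1⟩ := C.lift hR hE hK hk (zero_mem _) (by simp [bnum_zero])
  have h2 := h1 (m + 1) (by omega)
  rw [zero_add, bnum_zero] at h2
  have hD : (m + 1) • (oP P + k • C.E) ∈ On P := nsmul_mem (add_mem oP_mem (nsmul_mem C.on k)) _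
  obtain ⟨s, hs, h3⟩ : ∃ s ∈ ((m + 1) • (oP P + k • C.E)).Sec,
      s ∉ ((m + 1) • (oP P + k • C.E) - C.E).Sec := by
    by_contra! h3
    have := Submodule.finrank_mono (show ((m + 1) • (oP P + k • C.E)).Sec ≤ _ from h3)
    omega
  have h4 := (hs C.p.V).eq_of_not_lt ((C.ker_iff hD hs).not.1 h3)
  have h0 := ne_of_val h4
  have h5 : Ctr C ((m + 1) • (oP P + k • C.E) - pr ℂ s) :=
    { neg := hE
      on := sub_mem hD (pr_mem s)
      nonneg := sub_nonneg.2 ((pr_le_iff h0).2 hs)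
      val := Pl.val_sub_gen h4
      deg := by rw [bnum_sub, bnum_pr, bnum_nsmul, bnum_add, bnum_nsmul, hk, hE]; ring
      lin := ⟨m, (m + 1) * k, s⁻¹, inv_ne_zero h0, by rw [pr_inv]; module⟩
      lift a ha hj := by
        obtain ⟨m0, h5⟩ := C.lift hR hE hK hk ha hj
        refine ⟨m0, fun q hq => ?_⟩
        have he : a + q • ((m + 1) • (oP P + k • C.E) - pr ℂ s) =
            a + (q * (m + 1)) • (oP P + k • C.E) + pr ℂ (s ^ q)⁻¹ := by
          rw [pr_inv, pr_pow h0]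
          module
        rw [he, add_sub_right_comm, finrank_Sec_add_pr, finrank_Sec_add_pr]
        exact h5 _ (by nlinarith) }
  obtain ⟨q, h6⟩ := h5.free_add (zero_mem _) (Or.inl (bnum_zero _))
  exact ⟨_, h5.nsmul q, by simpa using h6 (q + 1) (by omega)⟩

end Crest.Agent.X262.Min33
end
end

-- ▼ part X262/Min33/Alg
section

/-!
# Row 262, MIN (helper33), part 0: commutative algebra

* `noeth_int`, `exists_fg` : the normalisation of an affine domain is finite;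
* `rees`      : valuation ideals of a finitely generated ideal form a finite module;
* `crd_of_sq` : Nakayama; `fs_of_crd` : coordinates give smoothness.
-/

set_option autoImplicit false

noncomputable section

namespace Crest.Agent.X262.Min33

open Crest.Agent.X277 Crest.Agent.X277.Lef Crest.Agent.X277.AN.G1 Module Polynomial
open scoped KaehlerDifferential

theorem noeth_int {E F : Type*} [Field E] [Field F] [Algebra E F] [CharZero E]
    [Algebra.EssFiniteType E F] (B : Type*) [CommRing B] [IsDomain B] [Algebra E B] [Algebra B F]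
    [IsScalarTower E B F] [Algebra.FiniteType E B] [FaithfulSMul B F] [Algebra.IsAlgebraic B F] :
    IsNoetherian B (integralClosure B F) := by
  obtain ⟨m, g, hg1, hg2⟩ := exists_integral_inj_algHom_of_fg E B
  let P := MvPolynomial (Fin m) E
  let _ : Algebra P B := (g : P →+* B).toAlgebra
  let _ : Algebra P F := ((algebraMap B F).comp (g : P →+* B)).toAlgebra
  have : IsScalarTower P B F := IsScalarTower.of_algebraMap_eq fun _ => rfl
  have : IsScalarTower E P F := IsScalarTower.of_algebraMap_eq fun c => by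
    rw [IsScalarTower.algebraMap_apply E B F]
    exact (congrArg (algebraMap B F) (g.commutes c)).symm
  have : Algebra.IsIntegral P B := ⟨hg2⟩
  have : FaithfulSMul P F :=
    (faithfulSMul_iff_algebraMap_injective P F).2 ((FaithfulSMul.algebraMap_injective B F).comp hg1)
  have : Algebra.IsAlgebraic P F := Algebra.IsAlgebraic.trans P B F
  let L := FractionRing P
  let _ : Algebra L F := FractionRing.liftAlgebra P F
  have : IsScalarTower E L F := IsScalarTower.of_algebraMap_eq fun c => by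
    rw [IsScalarTower.algebraMap_apply E P L, ← IsScalarTower.algebraMap_apply P L F,
      ← IsScalarTower.algebraMap_apply]
  have : Algebra.IsAlgebraic L F := IsFractionRing.comap_isAlgebraic_iff.1 ‹_›
  have : Algebra.EssFiniteType L F := Algebra.EssFiniteType.of_comp E L F
  have : FiniteDimensional L F := Algebra.finite_of_essFiniteType_of_isAlgebraic
  have : CharZero L := algebraRat.charZero L
  have : IsIntegralClosure (integralClosure B F) P F := ⟨Subtype.val_injective, fun {x} =>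
    ⟨fun h => ⟨⟨x, h.tower_top⟩, rfl⟩, fun ⟨y, h⟩ => h ▸ isIntegral_trans (R := P) (y : F) y.2⟩⟩
  exact isNoetherian_of_tower P (IsIntegralClosure.isNoetherian P L F (integralClosure B F))

theorem exists_fg {E F : Type*} [Field E] [Field F] [Algebra E F] [CharZero E]
    [Algebra.EssFiniteType E F] {S : Set F} (hS : S.Finite)
    (hB : ∀ f : F, IsAlgebraic (Algebra.adjoin E S) f) :
    ∃ T : Finset F, ∀ x, x ∈ Algebra.adjoin E (T : Set F) ↔ IsIntegral (Algebra.adjoin E S) x := by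
  have : Algebra.FiniteType E (Algebra.adjoin E S) := Algebra.FiniteType.adjoin_of_finite hS
  have : Algebra.IsAlgebraic (Algebra.adjoin E S) F := ⟨hB⟩
  have := noeth_int (E := E) (F := F) (Algebra.adjoin E S)
  have h1 : Algebra.FiniteType E (integralClosure (Algebra.adjoin E S) F) :=
    .trans (S := Algebra.adjoin E S) inferInstance inferInstance
  obtain ⟨T, hT⟩ := (Subalgebra.fg_iff_finiteType
    ((integralClosure (Algebra.adjoin E S) F).restrictScalars E)).2 h1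
  exact ⟨T, fun x => by rw [hT]; rfl⟩

variable {F : Type} [Field F] [Algebra ℂ F]

/-- the valuation ideals of the powers of `H` are generated in bounded degree -/
theorem rees [Algebra.EssFiniteType ℂ F] {S H : Set F} (hS : S.Finite) (hH : H.Finite)
    (hB : ∀ f : F, IsAlgebraic (Algebra.adjoin ℂ S) f) (h0 : ∃ h ∈ H, h ≠ 0) (I : ℕ → Set F)
    (hI : ∀ n, ∀ f ∈ I n, ∀ V : ValuationSubring F, Cns.KV ℂ V → (∀ y ∈ S, y ∈ V) →
      ∃ h ∈ H, h ≠ 0 ∧ f / h ^ n ∈ V) :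
    ∃ n0 : ℕ, ∀ N : ℕ → Submodule ℂ F, (∀ n ≤ n0, ∀ f ∈ I n, f ∈ N n) →
      (∀ n, ∀ y ∈ S, ∀ f ∈ N n, y * f ∈ N n) → (∀ n, ∀ h ∈ H, ∀ f ∈ N n, h * f ∈ N (n + 1)) →
        ∀ n, ∀ f ∈ I n, f ∈ N n := by
  classical
  let L := RatFunc F
  let ι : F[X] →ₐ[ℂ] L := IsScalarTower.toAlgHom ℂ F[X] L
  have hι : Function.Injective ι := IsFractionRing.injective F[X] L
  let S' : Set F[X] := C '' S ∪ (fun h => C h * X) '' H
  let B := Algebra.adjoin ℂ S'
  have : Algebra.FiniteType ℂ B :=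
    Algebra.FiniteType.adjoin_of_finite ((hS.image _).union (hH.image _))
  have : Algebra.EssFiniteType F[X] L :=
    Algebra.EssFiniteType.of_isLocalization (S := L) (nonZeroDivisors F[X])
  have : Algebra.EssFiniteType F L := Algebra.EssFiniteType.comp F F[X] L
  have : Algebra.EssFiniteType ℂ L := Algebra.EssFiniteType.comp ℂ F L
  have hf : FaithfulSMul B L :=
    (faithfulSMul_iff_algebraMap_injective B L).2 (hι.comp Subtype.val_injective)
  have hC : ∀ f : F, IsAlgebraic B (C f : F[X]) := fun f => by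
    let φ : Algebra.adjoin ℂ S →ₐ[ℂ] B :=
      ((IsScalarTower.toAlgHom ℂ F F[X]).comp (Algebra.adjoin ℂ S).val).codRestrict B fun y =>
        (Algebra.adjoin_le (S := B.comap (IsScalarTower.toAlgHom ℂ F F[X]))
          fun z hz => Algebra.subset_adjoin (Or.inl ⟨z, hz, rfl⟩)) y.2
    exact (hB f).ringHom_of_comp_eq (φ : _ →+* _) (C : F →+* F[X])
      (fun a b h => Subtype.ext (C_injective (congrArg Subtype.val h))) rfl
  have hX : IsAlgebraic B (X : F[X]) := by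
    obtain ⟨h, h1, h2⟩ := h0
    have h3 : IsAlgebraic B (C h * X : F[X]) :=
      isAlgebraic_algebraMap (⟨_, Algebra.subset_adjoin (Or.inr ⟨h, h1, rfl⟩)⟩ : B)
    have h4 := (hC h⁻¹).mul h3
    rwa [← mul_assoc, ← C_mul, inv_mul_cancel₀ h2, C_1, one_mul] at h4
  have : Algebra.IsAlgebraic B F[X] := ⟨fun p => by
    induction p using Polynomial.induction_on' with
    | add p q hp hq => exact hp.add hq
    | monomial n a => rw [← C_mul_X_pow_eq_monomial]; exact (hC a).mul (hX.pow n)⟩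
  have : Algebra.IsAlgebraic F[X] L := IsLocalization.isAlgebraic L (nonZeroDivisors F[X])
  have : Algebra.IsAlgebraic B L := Algebra.IsAlgebraic.trans B F[X] L
  have hN := noeth_int (E := ℂ) (F := L) B
  let G : Set F[X] := {p | ∃ n, ∃ f ∈ I n, p = C f * X ^ n}
  let ψ : F[X] →ₗ[B] L := (IsScalarTower.toAlgHom B F[X] L).toLinearMap
  have h1 : (Submodule.span B G).map ψ ≤ (integralClosure B L).toSubmodule := by
    rw [Submodule.map_span_le]
    rintro _ ⟨n, f, hf, rfl⟩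
    have h2 : IsIntegral (B.map ι) (ι (C f * X ^ n)) := Cns.isIntegral_of_val fun W hW => by
      have h3 : ∀ p ∈ S', ι p ∈ W := fun p hp => hW _ ⟨p, Algebra.subset_adjoin hp, rfl⟩
      obtain ⟨h, h4, h5, h6⟩ := hI n f hf (W.comap ((ι : F[X] →+* L).comp C))
        (fun c => hW _ ⟨_, B.algebraMap_mem c, rfl⟩) fun y hy => h3 _ (Or.inl ⟨y, hy, rfl⟩)
      have h7 : C f * X ^ n = C (f / h ^ n) * (C h * X) ^ n := by
        rw [mul_pow, ← mul_assoc, ← C_pow, ← C_mul, div_mul_cancel₀ _ (pow_ne_zero n h5)]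
      rw [h7, map_mul, map_pow]
      exact mul_mem h6 (pow_mem (h3 _ (Or.inr ⟨h, h4, rfl⟩)) n)
    exact IsIntegral.map_of_comp_eq ((B.equivMapOfInjective ι hι).symm : _ →+* B) (RingHom.id L)
      (by ext y; obtain ⟨y, rfl⟩ := (B.equivMapOfInjective ι hι).surjective y; simp; rfl) h2
  have h2 : (Submodule.span B G).FG :=
    Submodule.fg_of_fg_map_injective ψ hι (isNoetherian_submodule.1 hN _ h1)
  obtain ⟨T, hT, h3⟩ := (Submodule.fg_span_iff_fg_span_finset_subset G).1 h2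
  choose! d f h4 h5 using fun p (hp : p ∈ T) => hT hp
  refine ⟨T.sup d, fun N h6 h7 h8 n g hg => ?_⟩
  let M : Submodule ℂ F[X] :=
    { carrier := {p | ∀ n, p.coeff n ∈ N n}
      add_mem' := fun ha hb n => by rw [coeff_add]; exact add_mem (ha n) (hb n)
      zero_mem' := fun n => zero_mem _
      smul_mem' := fun c _ ha n => by rw [coeff_smul]; exact (N n).smul_mem c (ha n) }
  have h9 : ∀ q ∈ B, ∀ p ∈ M, q * p ∈ M := fun q hq => by
    induction hq using Algebra.adjoin_induction with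
    | mem q hq =>
      intro p hp n
      rcases hq with ⟨y, hy, rfl⟩ | ⟨y, hy, rfl⟩
      · rw [coeff_C_mul]
        exact h7 n y hy _ (hp n)
      · rw [mul_assoc, coeff_C_mul]
        cases n with
        | zero => simp
        | succ n => rw [coeff_X_mul]; exact h8 n y hy _ (hp n)
    | algebraMap c => exact fun p hp => Algebra.smul_def c p ▸ M.smul_mem c hp
    | add q q' _ _ h h' => exact fun p hp => (add_mul q q' p).symm ▸ add_mem (h p hp) (h' p hp)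
    | mul q q' _ _ h h' => exact fun p hp => (mul_assoc q q' p).symm ▸ h _ (h' p hp)
  have h10 : ∀ p ∈ Submodule.span B (T : Set F[X]), p ∈ M := fun p hp => by
    induction hp using Submodule.span_induction with
    | mem p hp =>
      intro n
      rw [h5 p hp, coeff_C_mul, coeff_X_pow]
      split_ifs with h
      · rw [mul_one, h]
        exact h6 _ (Finset.le_sup hp) _ (h4 p hp)
      · simp
    | zero => exact zero_mem _
    | add p q _ _ h h' => exact add_mem h h'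
    | smul q p _ h => exact h9 q q.2 p h
  have h11 := h10 (C g * X ^ n) (h3 ▸ Submodule.subset_span ⟨n, g, hg, rfl⟩) n
  rwa [coeff_C_mul, coeff_X_pow, if_pos rfl, mul_one] at h11

variable {L : LP F} {n : ℕ} {z : Fin n → F} {B : Subalgebra ℂ F}

/-- Nakayama -/
theorem crd_of_sq [IsNoetherianRing L.O] (hL : L.Of B) (hz : ∀ l, z l ∈ L.O)
    (hv : ∀ l, L.v (z l) = 0) (h : ∀ N : Submodule ℂ F, (∀ a ∈ L.O, ∀ g ∈ N, a * g ∈ N) →
      (∀ l, z l ∈ N) → (∀ a ∈ L.O, ∀ c ∈ L.O, L.v a = 0 → L.v c = 0 → a * c ∈ N) →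
        ∀ f ∈ B, L.v f = 0 → f ∈ N) : L.Crd z := by
  let J : Ideal L.O := Ideal.span (Set.range fun l => (⟨z l, hz l⟩ : L.O))
  have h1 : L.mx ≤ J := by
    refine Submodule.le_of_le_smul_of_le_jacobson_bot (IsNoetherian.noetherian _)
      LP.mx_le_jacobson fun f hf => ?_
    obtain ⟨a, ha, c, hc, h1, h2⟩ := hL.loc f f.2
    obtain ⟨g, h3, h4⟩ := h (((J ⊔ L.mx • L.mx).restrictScalars ℂ).map L.O.val.toLinearMap)
      (by
        rintro a ha _ ⟨g, hg, rfl⟩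
        exact ⟨⟨a, ha⟩ * g, (J ⊔ L.mx • L.mx).mul_mem_left _ hg, rfl⟩)
      (fun l => ⟨⟨z l, hz l⟩, Submodule.mem_sup_left (Ideal.subset_span ⟨l, rfl⟩), rfl⟩)
      (fun a ha c hc h1 h2 => ⟨⟨a, ha⟩ * ⟨c, hc⟩, Submodule.mem_sup_right
        (Ideal.mul_mem_mul h1 h2), rfl⟩) a ha
      (by rw [← h2, L.v_mul f.2 (hL.le hc), L.mem_mx.1 hf, zero_mul])
    have h5 : f = ⟨c⁻¹, L.inv_mem h1⟩ * g := Subtype.ext (by
      have h6 : (g : F) = a := h4
      rw [MulMemClass.coe_mul, h6, ← h2, mul_comm, mul_inv_cancel_right₀ (LP.ne_zero_of_ne h1)])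
    exact h5 ▸ Ideal.mul_mem_left _ _ h3
  refine ⟨hz, fun f hf => ?_⟩
  obtain ⟨c, hc⟩ := Ideal.mem_span_range_iff_exists_fun.1 (h1 (LP.sub_v_mem_mx2 hf))
  refine ⟨fun l => c l, fun l => (c l).2, ?_⟩
  have h2 := congrArg Subtype.val hc
  simp only [AddSubmonoidClass.coe_finsetSum, MulMemClass.coe_mul] at h2
  simp only [hv, map_zero, sub_zero, h2, add_sub_cancel]

/-- coordinates give smoothness -/
theorem fs_of_crd (hL : L.Of B) [Algebra.FiniteType ℂ B] [IsFractionRing B F]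
    (b : Basis (Fin n) F Ω[F⁄ℂ]) (hz : L.Crd z) : Algebra.FormallySmooth ℂ L.O := by
  let _ : Algebra B L.O := (Subalgebra.inclusion hL.le).toAlgebra
  have : IsScalarTower ℂ B L.O := IsScalarTower.of_algebraMap_eq fun _ => rfl
  let φ : B →ₐ[ℂ] ℂ := L.hom.comp (Subalgebra.inclusion hL.le)
  have : (RingHom.ker φ).IsPrime := RingHom.ker_isPrime φ
  have h1 : IsLocalization.AtPrime L.O (RingHom.ker φ) := by
    convert hL.isLocalization using 1
    ext a
    exact (L.isUnit_iff (f := ⟨a, hL.le a.2⟩)).symm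
  have hj := hz.jac_ne hL.fin b
  let d : Fin n → Derivation ℂ L.O L.O := fun l =>
    { toFun f := ⟨pdD hj l f, pdD_apply hj l f ▸ hz.pd_mem hL.fin b l f.2⟩
      map_add' f g := Subtype.ext (map_add _ _ _)
      map_smul' c f := Subtype.ext ((pdD hj l).map_smul c f)
      map_one_eq_zero' := Subtype.ext (pdD hj l).map_one_eq_zero
      leibniz' f g := Subtype.ext ((pdD hj l).leibniz f g) }
  refine Res.SmCrit.formallySmooth_of_coords φ (RingHom.ker φ) (fun _ => RingHom.mem_ker)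
    (fun l => (⟨z l - algebraMap ℂ F (L.v (z l)), sub_mem (hz.mem l) (L.O.algebraMap_mem _)⟩ : L.O))
    ?_ d fun i j => Subtype.ext ?_
  · rw [IsLocalization.AtPrime.map_eq_maximalIdeal, L.maximalIdeal_eq]
    refine le_antisymm (fun f hf => ?_) (Ideal.span_le.2 ?_)
    · obtain ⟨c, h2, h3⟩ := hz.gen f f.2
      rw [L.mem_mx.1 hf, map_zero, zero_add] at h3
      refine Ideal.mem_span_range_iff_exists_fun.2 ⟨fun l => ⟨c l, h2 l⟩, Subtype.ext ?_⟩
      rw [h3, AddSubmonoidClass.coe_finsetSum]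
      rfl
    · rintro _ ⟨l, rfl⟩
      exact LP.sub_v_mem_mx2 (hz.mem l)
  · change pdD hj i (z j - _) = _
    rw [map_sub, Derivation.map_algebraMap, sub_zero, pdD_apply, pd_self hj]
    split_ifs <;> rfl

end Crest.Agent.X262.Min33
end
end

-- ▼ part X262/Min33/Cast
section

/-!
# Row 262, MIN (helper33), part 4: Castelnuovo's contraction theorem

* `Ctr.frac`, `Ctr.fs_off`, `Ctr.fs_on` : the local rings of the image;
* `exists_cast` : a smooth model whose hyperplane class contracts the curve.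
-/

set_option autoImplicit false
set_option linter.unusedSectionVars false

noncomputable section

namespace Crest.Agent.X262.Min33

open Crest.Agent.X277 Crest.Agent.X277.BD Crest.Agent.X277.BD.Cyc Crest.Agent.X277.Lef
open Crest.Agent.X277.AN.G1 Crest.Agent.X277.BD.Br Module
open Crest.Agent.X277.Cns (Ov chI)
open scoped KaehlerDifferential

variable {F : Type} [Field F] [Algebra ℂ F] [Algebra.EssFiniteType ℂ F]
variable {P : PModel ℂ F} {κ : Type} [Field κ] [Algebra ℂ κ] [Algebra.EssFiniteType ℂ κ]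
variable {C : Cv P κ} {G a : BD ℂ F} {f t : F} {B : Subalgebra ℂ F} {L : LP F} {W : RZ ℂ F}

namespace Ctr

variable (h : Ctr C G)
include h

theorem exists_y (i : Fin (P.N + 1)) : ∃ u ∈ G.Sec, u ≠ 0 ∧ (∀ j, P.y j / P.y i * u ∈ G.Sec) ∧
    ∀ V : RZ ℂ F, V.v (P.y i) = (oP P).val V → C.E.val V = 1 → V.v u = G.val V := by
  obtain ⟨m, n, w, h1, rfl⟩ := h.lin
  have h2 : ∀ j, P.y j / P.y i * (P.y i ^ (m + 1) * w) ∈
      ((m + 1) • oP P + n • C.E + pr ℂ w).Sec := fun j => by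
    have h3 := mul_mem_Sec (mul_mem_Sec (mul_mem_Sec (pow_mem_Sec (y_mem_Sec i) m) (y_mem_Sec j))
      (pow_mem_Sec (nonneg_iff.1 C.nonneg) n)) (mem_Sec_pr (k := ℂ) w)
    rw [← succ_nsmul] at h3
    convert h3 using 1
    have := P.y_ne i
    field_simp
    ring
  refine ⟨P.y i ^ (m + 1) * w, by simpa [P.y_ne i] using h2 i,
    mul_ne_zero (pow_ne_zero _ (P.y_ne i)) h1, h2, fun V h3 h4 => ?_⟩
  simp [h3, h4, val_pr h1]

theorem frac (ht : t ≠ 0) (hB : ∀ s ∈ G.Sec, s / t ∈ B) (f : F) :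
    ∃ a ∈ B, ∃ c ∈ B, c ≠ 0 ∧ f = a / c := by
  obtain ⟨u, h1, h2, h3, -⟩ := h.exists_y 0
  have h4 : chart ℂ P.y 0 ≤ (IntermediateField.adjoin ℂ (B : Set F)).toSubalgebra :=
    Algebra.adjoin_le (by
      rintro _ ⟨j, rfl⟩
      have h4 := div_mem (IntermediateField.subset_adjoin ℂ (B : Set F) (hB _ (h3 j)))
        (IntermediateField.subset_adjoin ℂ (B : Set F) (hB _ h1))
      rwa [div_div_div_cancel_right₀ ht, mul_div_cancel_right₀ _ h2] at h4)
  obtain ⟨a, ha, c, hc, -, rfl⟩ := P.frac f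
  obtain ⟨a', ha', c', hc', h5⟩ := IntermediateField.mem_adjoin_iff_div.1
    (div_mem (h4 ha) (h4 hc) : a / c ∈ IntermediateField.adjoin ℂ (B : Set F))
  rw [Algebra.adjoin_eq] at ha' hc'
  by_cases h6 : c' = 0
  · exact ⟨0, zero_mem _, 1, one_mem _, one_ne_zero, by simp [h5, h6]⟩
  · exact ⟨a', ha', c', hc', h6, h5⟩

/-- off the curve the image is isomorphic to the surface -/
theorem fs_off (hL : L.Of B) (hW : ∀ f ∈ L.O, W.v f = 1 ↔ L.v f ≠ 0) (ht : W.v t = G.val W)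
    (hB : ∀ s ∈ G.Sec, s / t ∈ B) (hB' : ∀ x : Pts P, (lp x).Dom L → B ≤ (lp x).O)
    (hE : C.E.val W = 1) : Algebra.FormallySmooth ℂ L.O := by
  obtain ⟨i, hi, -⟩ := exists_chart (P := P) W
  obtain ⟨u, h1, h2, h3, h4⟩ := h.exists_y i
  obtain ⟨x, -, hx⟩ := AN.G1.exists_dom (P := P) (i := i) L fun j => by
    have h5 := LP.div_mem (hL.le (hB _ (h3 j))) ((hW _ (hL.le (hB _ h1))).1
      (by rw [map_div₀, h4 W hi hE, ht, div_self (val_ne _ _)]))
    rwa [div_div_div_cancel_right₀ (ne_of_val ht), mul_div_cancel_right₀ _ h2] at h5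
  exact Cns.eq_of_dom_of hx hL (hB' x hx) ▸ Cns.lp_fs x

theorem alg (hG : Free G) : ∃ S : Set F, S.Finite ∧
    (∀ f : F, IsAlgebraic (Algebra.adjoin ℂ S) f) ∧
    (∀ V : RZ ℂ F, (∀ y ∈ S, y ∈ V.1) ↔ G.val V = 1) ∧
      ∀ f : F, IsIntegral (Algebra.adjoin ℂ S) f ↔ f ∈ II C G 0 := by
  obtain ⟨r, g, -, g1, g2⟩ := hG.exists_fam
  have h1 : ∀ V : RZ ℂ F, (∀ y ∈ Set.range g, y ∈ V.1) ↔ G.val V = 1 := fun V => by
    refine ⟨fun h1 => le_antisymm ?_ (h.nonneg V), fun h1 => ?_⟩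
    · obtain ⟨i, hi⟩ := g2 V
      exact hi ▸ RZ.le_one_iff.2 (h1 _ ⟨i, rfl⟩)
    · rintro _ ⟨i, rfl⟩
      exact RZ.le_one_iff.1 (h1 ▸ g1 i V)
  have h2 : ∀ f : F, IsIntegral (Algebra.adjoin ℂ (Set.range g)) f ↔ f ∈ II C G 0 := fun f =>
    ⟨fun hf => mem_II_zero.2 fun V hV => Cns.mem_of_isIntegral hf (V.2.adjoin_le ((h1 V).2 hV)),
      fun hf => Cns.isIntegral_of_val fun V hV => mem_II_zero.1 hf ⟨V, Cns.KV.of_le hV⟩
        ((h1 _).1 fun y hy => hV y (Algebra.subset_adjoin hy))⟩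
  refine ⟨Set.range g, Set.finite_range g, fun f => ?_, h1, h2⟩
  obtain ⟨a, ha, c, hc, -, rfl⟩ := h.frac (B := (integralClosure (Algebra.adjoin ℂ (Set.range g))
    F).restrictScalars ℂ) one_ne_zero
    (fun s hs => (h2 _).2 (mem_II (N := 1) (by simpa using hs))) f
  exact div_eq_mul_inv a c ▸ (IsIntegral.isAlgebraic ha).mul (IsIntegral.isAlgebraic hc).inv

/-- the image of the curve is a smooth point -/
theorem crd (hG : Free G) [IsNoetherianRing L.O] (hL : L.Of B) (h0 : ∀ f ∈ II C G 0, f ∈ L.O)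
    (h1 : ∀ f ∈ II C G 1, L.v f = 0) (hB : ∀ f ∈ B, ∃ t, L.v t ≠ 0 ∧ f * t ∈ II C G 0) :
    ∃ z : Fin 2 → F, L.Crd z := by
  obtain ⟨c, X, Y, h2, hX, hY, h3⟩ := h.exists_xy hG
  obtain ⟨S, hS, h4, h5, -⟩ := h.alg hG
  obtain ⟨r, η, η0, η1, η2⟩ := h2.exists_fam
  have hη : ∀ j, η j ∈ II C G 1 := fun j => mem_II (N := c) (by rw [one_nsmul]; exact η1 j)
  have h10 : ∀ f ∈ II C G 1, f ∈ L.O := fun f hf => h0 f (II_anti zero_le_one hf)
  obtain ⟨n0, h6⟩ := rees hS (Set.finite_range η) h4 ⟨_, ⟨0, rfl⟩, η0 0⟩ (fun n => II C G n)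
    fun n f hf V hV hVS => by
      obtain ⟨j, hj⟩ := η2 ⟨V, hV⟩
      have h6 := (h5 ⟨V, hV⟩).1 hVS
      refine ⟨_, ⟨j, rfl⟩, η0 j, (RZ.le_iff (V := ⟨V, hV⟩) (pow_ne_zero n (η0 j))).1 ?_⟩
      simpa [hj, h6] using hf ⟨V, hV⟩ h6
  refine ⟨![X, Y], crd_of_sq hL (Fin.forall_fin_two.2 ⟨h10 X hX, h10 Y hY⟩)
    (Fin.forall_fin_two.2 ⟨h1 X hX, h1 Y hY⟩) fun N hN hz hq f hf hv => ?_⟩
  obtain ⟨t, ht, h7⟩ := hB f hf
  have h8 : ∀ n, ∃ q ∈ N, f * t - q ∈ II C G (n + 1) := fun n => by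
    induction n with
    | zero =>
      obtain ⟨q, h8, h9⟩ := h3 0 _ h7
      obtain ⟨u, rfl⟩ : ∃ u : ℂ, algebraMap ℂ F u = q := by
        simpa [Submodule.mem_span_singleton, Algebra.algebraMap_eq_smul_one] using h8
      have h11 := h1 _ h9
      rw [LP.v_sub (h0 _ h7) (L.O.algebraMap_mem u), L.v_mul (hL.le hf) (LP.mem_of_ne ht), hv,
        L.v_alg, zero_mul, zero_sub, neg_eq_zero] at h11
      exact ⟨_, by simp [h11], h9⟩
    | succ n ih =>
      obtain ⟨q, h8, h9⟩ := ih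
      obtain ⟨q', h11, h12⟩ := h3 _ _ h9
      refine ⟨q + q', add_mem h8 (Submodule.span_le.2 ?_ h11), sub_sub (f * t) q q' ▸ h12⟩
      rintro _ ⟨⟨i, hi⟩, rfl⟩
      cases i with
      | zero => simpa [pow_succ] using hN _ (pow_mem (h10 X hX) n) _ (hz 0)
      | succ i =>
        have h13 := hN _ (mul_mem (pow_mem (h10 X hX) (n + 1 - (i + 1))) (pow_mem (h10 Y hY) i))
          _ (hz 1)
        rwa [mul_assoc, Matrix.cons_val_one, Matrix.cons_val_zero, ← pow_succ] at h13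
  have hSI : ∀ y ∈ S, y ∈ II C G 0 := fun y hy => mem_II_zero.2 fun V hV => (h5 V).2 hV y hy
  have h9 := h6 (fun n => II C G 0 ⊓ ((⨅ _ : n0 < n, II C G 1) ⊓ ⨅ _ : n0 + 1 < n, N))
    (fun n hn f hf => by
      simp only [Submodule.mem_inf, Submodule.mem_iInf]
      exact ⟨II_anti n.zero_le hf, fun h => by omega, fun h => by omega⟩)
    (fun n y hy f hf => by
      simp only [Submodule.mem_inf, Submodule.mem_iInf] at hf ⊢
      exact ⟨mul_mem_II (n := 0) (n' := 0) (hSI y hy) hf.1,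
        fun h => mul_mem_II (n := 0) (n' := 1) (hSI y hy) (hf.2.1 h),
        fun h => hN _ (h0 _ (hSI y hy)) _ (hf.2.2 h)⟩)
    (by
      rintro n _ ⟨j, rfl⟩ f hf
      simp only [Submodule.mem_inf, Submodule.mem_iInf] at hf ⊢
      have h9 : η j * f ∈ II C G 1 := mul_mem_II (n := 1) (n' := 0) (hη j) hf.1
      exact ⟨II_anti zero_le_one h9, fun _ => h9, fun h =>
        hq _ (h10 _ (hη j)) _ (h0 _ hf.1) (h1 _ (hη j)) (h1 _ (hf.2.1 (by omega)))⟩)
  obtain ⟨q, h11, h12⟩ := h8 (n0 + 1)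
  have h13 := h9 _ _ h12
  simp only [Submodule.mem_inf, Submodule.mem_iInf] at h13
  have h14 := hN _ (L.inv_mem ht) _ (add_mem (h13.2.2 (by omega)) h11)
  rwa [sub_add_cancel, mul_comm, mul_inv_cancel_right₀ (LP.ne_zero_of_ne ht)] at h14

end Ctr

/-- **Castelnuovo** -/
theorem exists_cast {b : Basis (Fin 2) F Ω[F⁄ℂ]} (hR : RRP P b) (hE : bnum [C.E, C.E] = -1)
    (hK : bnum [C.E, kP P b] = -1) : ∃ P0 : PModel ℂ F, Ctr C (oP P0) := by
  obtain ⟨G, h, hG⟩ := exists_ctr hR hE hK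
  obtain ⟨S, hS, h1, -, h2⟩ := h.alg hG
  obtain ⟨T, hT⟩ := exists_fg hS h1
  choose! N hN using fun s (hs : s ∈ T) =>
    tw_II hG h.nonneg ((h2 s).1 ((hT s).1 (Algebra.subset_adjoin hs)))
  have h3 : ∀ s ∈ T, s ∈ ((T.sup N + 1) • G).Sec := fun s hs => by
    simpa using hN s hs _ ((Finset.le_sup hs).trans (Nat.le_succ _))
  generalize T.sup N = r at h3
  have h' := h.nsmul r
  let β := Module.finBasis ℂ ((r + 1) • G).Sec
  let w : Fin (finrank ℂ ((r + 1) • G).Sec) → F := fun i => β i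
  have : Nonempty (Fin (finrank ℂ ((r + 1) • G).Sec)) :=
    ⟨⟨0, eff_iff_finrank.1 (eff_of_nonneg h'.nonneg)⟩⟩
  have hw : ∀ i, w i ≠ 0 := fun i h0 => β.ne_zero i (Subtype.ext h0)
  have h4 : ∀ s ∈ ((r + 1) • G).Sec, s ∈ Submodule.span ℂ (Set.range w) := fun s hs => by
    have h4 := congrArg Subtype.val (β.sum_repr ⟨s, hs⟩)
    rw [AddSubmonoidClass.coe_finsetSum] at h4
    rw [← show _ = s from h4]
    exact sum_mem fun i _ => Submodule.smul_mem _ _ (Submodule.subset_span ⟨i, rfl⟩)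
  have h5 : ∀ l, ∀ s ∈ ((r + 1) • G).Sec, s / w l ∈ chI ℂ w l := fun l s hs => by
    rw [div_eq_mul_inv]
    refine Submodule.span_le
      (p := (chI ℂ w l).toSubmodule.comap (LinearMap.mulRight ℂ (w l)⁻¹)) |>.2 ?_ (h4 s hs)
    rintro _ ⟨j, rfl⟩
    simpa [div_eq_mul_inv] using Cns.div_mem_chI ℂ w l j
  have h6 : ∀ V : RZ ℂ F, ∃ i, V.v (w i) = ((r + 1) • G).val V := fun V => by
    obtain ⟨s, hs, h6⟩ := (hG.nsmul (r + 1)).exists_gen V
    obtain ⟨i, hi⟩ := exists_val_mxf (k := ℂ) ⟨_, hw (Classical.arbitrary _)⟩ V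
    refine ⟨i, le_antisymm ((β i).2 V) (h6 ▸ RZ.v_le_of_span ?_ (h4 s hs))⟩
    rintro _ ⟨j, rfl⟩
    exact hi ▸ mem_Sec_mxf w j V
  have h7 : Cns.Gn P w :=
    gn_of_mem ⟨_, hw (Classical.arbitrary _)⟩ (eq_mxf (fun i => (β i).2) h6 ▸ h'.on)
  have hfr := fun l => h'.frac (hw l) (h5 l)
  have hsm : ∀ l, Algebra.Smooth ℂ (chI ℂ w l) := fun l => Cns.smooth_of_lp _ fun L hL => by
    obtain ⟨W0, hW1, hW2⟩ := Cns.exists_val_dom L
    let W : RZ ℂ F := ⟨W0, Cns.KV.of_le hW1⟩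
    have hW : ∀ f ∈ L.O, W.v f = 1 ↔ L.v f ≠ 0 := fun f hf => Cns.un_iff_val.symm.trans (hW2 f hf)
    have ht : W.v (w l) = ((r + 1) • G).val W := by
      obtain ⟨i, hi⟩ := h6 W
      exact le_antisymm ((β l).2 W)
        (hi ▸ (RZ.le_iff (hw l)).2 (hW1 _ (hL.le (Cns.div_mem_chI ℂ w l i))))
    by_cases hE' : C.E.val W = 1
    · exact h'.fs_off hL hW ht (h5 l) (fun x hx => Cns.chI_le
        (h7.div_mem hx (hw l) fun j => hL.le (Cns.div_mem_chI ℂ w l j))) hE'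
    have : IsFractionRing (chI ℂ w l) F := IsFractionRing.of_field _ _ fun z => by
      obtain ⟨a, ha, c, hc, -, rfl⟩ := hfr l z
      exact ⟨⟨a, ha⟩, ⟨c, hc⟩, rfl⟩
    have := hL.fin.noeth
    have h8 : W.v (w l) = 1 := ht.trans (h'.val_eq hE')
    have h9 : w l ∈ L.O := by
      simpa using L.inv_mem ((hW _ (hL.le (h5 l 1 (nonneg_iff.1 h'.nonneg)))).1 (by simp [h8]))
    have h10 : ∀ f ∈ II C G 0, f ∈ L.O := fun f hf => Algebra.adjoin_le (S := L.O)
      (fun s hs => div_mul_cancel₀ s (hw l) ▸ mul_mem (hL.le (h5 l s (h3 s hs))) h9)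
      ((hT f).2 ((h2 f).2 hf))
    obtain ⟨z, hz⟩ := h.crd hG hL h10 (fun f hf => by_contra fun h11 => by
      have h12 := hf W (h.val_eq hE')
      rw [(hW f (LP.mem_of_ne h11)).2 h11, one_nsmul, val_neg, one_le_inv₀ (val_pos _ _)] at h12
      exact hE' (le_antisymm h12 (C.nonneg W))) fun f hf => by
        obtain ⟨k, hk⟩ := Geo.exists_tw (a := 0) (x := f) (hG.nsmul (r + 1)) (β l).2 (hw l)
          fun V hV => RZ.le_one_iff.2 (Cns.chI_le (B := Cns.kSub V.2)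
            (fun j => (RZ.le_iff (hw l)).1 (hV ▸ (β j).2 V)) hf)
        refine ⟨w l ^ k, by rw [LP.v_pow h9]; exact pow_ne_zero _ ((hW _ h9).1 h8),
          mem_II (N := k * (r + 1)) ?_⟩
        simpa [smul_smul] using hk k le_rfl
    exact fs_of_crd hL b hz
  refine ⟨Cns.ofFam w hw hfr hsm, ?_⟩
  have h8 : (r + 1) • G = oP (Cns.ofFam w hw hfr hsm) := eq_mxf (fun i => (β _).2) fun V => by
    obtain ⟨i, hi⟩ := h6 V
    exact ⟨(Cns.eI _).symm i, by rwa [Cns.ofFam_y_symm]⟩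
  exact h8 ▸ h'

end Crest.Agent.X262.Min33
end
end

-- ▼ part X262/Min33/Min
section

/-!
# Row 262, MIN (helper33), part 5: minimal models of surfaces

* `nef_of_dg`, `exists_neg` : nefness is tested on the primes of a surface;
* `rrp`, `adj`  : Riemann-Roch in the form `RRP`, the adjunction inequality;
* `Cst b P P0 V`, `cast` : the contraction of a `(-1)`-curve;
* `null_ind`, `min_ind`, `exists_min` : induction principles, minimal models;
* `thMinStmt`, `kStmt`.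
-/

set_option autoImplicit false
set_option linter.unusedSectionVars false

noncomputable section

namespace Crest.Agent.X262.Min33

open Crest.Agent.X277 Crest.Agent.X277.BD Crest.Agent.X277.Lef Crest.Agent.X277.Pst
open Crest.Agent.X277.AN.G1 Crest.Agent.X277.BD.Br Module
open Crest.Agent.X277.BD.Cyc (Rf plV lnr_plV)
open Crest.Agent.X262.Geo Crest.Agent.X262.Surf
open Crest.Agent.X262.Mod (IsMod Car)

/-- nefness on a surface is tested on the primes -/
theorem nef_of_dg {k F : Type} [Field k] [Field F] [Algebra k F] [CharZero k]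
    [Algebra.EssFiniteType k F] {H a : BD k F} (hH : IsMod H) (hd : dim k F = 2) (ha : Car H a)
    (h : ∀ V, Prm H V → 0 ≤ dg V [a]) : Nef a := by
  obtain ⟨M, rfl⟩ := hH.va
  refine (Cyc.nef_iff (M := M) (a := ⟨a, Mod.car_mdl.1 ha⟩)).1 (AN.G2.nef_iff.2 fun Z hZ => ?_)
  by_cases h0 : R274.Dim_413.DimLT M.S Z.O 1
  · exact (AN.G2.num_of_dimLT h0 le_rfl).ge
  obtain ⟨D, hD⟩ := AN.G2.exists_pdiv (S := M.S) (Cyc.nrm M) (d := 1) hd
    (AN.G2H.not_top_sub (S := M.S) (by rw [← hd] at hZ; exact hZ)) h0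
  rw [hD.num_eq, ← Cyc.dg_eq hd D (l := [⟨a, Mod.car_mdl.1 ha⟩]) rfl, ← dg_rzD]
  exact h _ (prm_rzD M D)

variable {F : Type} [Field F] [Algebra ℂ F] [Algebra.EssFiniteType ℂ F] {P P0 : PModel ℂ F}
  {b : B2 F} {V W : RZ ℂ F} {a Θ : BD ℂ F}

theorem dg_one (hV : Prm (oP P) V) (ha : a ∈ On P) : dg V [a] = bnum [a, dv P V] :=
  dg_On hV ha (by simp)

theorem nef_of_dv (hd : dim ℂ F = 2) (ha : a ∈ On P)
    (h : ∀ V, Prm (oP P) V → 0 ≤ bnum [a, dv P V]) : Nef a :=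
  nef_of_dg (isMod_oP P) hd (car_of_On ha) fun V hV => dg_one hV ha ▸ h V hV

theorem dv_dv_nonneg (hV : Prm (oP P) V) (h : V ≠ W) : 0 ≤ bnum [dv P W, dv P V] :=
  dg_one hV (dv_mem W) ▸ dg_dv_nonneg hV h (by simp)

theorem nef_dv (ha : Nef a) (V : RZ ℂ F) : 0 ≤ bnum [a, dv P V] :=
  (bnum_eff (eff_of_nonneg (dv_nonneg V)) ha).trans_eq (bnum_swap _ _ _)

theorem oP_dv_pos (hd : dim ℂ F = 2) (hV : Prm (oP P) V) : 0 < bnum [oP P, dv P V] :=
  dg_one hV oP_mem ▸ dg_oP_pos hV (d := 1) hd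

/-- a curve on which a pseudo-effective class is negative is a negative curve -/
theorem sq_neg (hd : dim ℂ F = 2) (ha : Psef a) (h : bnum [a, dv P V] < 0) :
    bnum [dv P V, dv P V] < 0 := not_le.1 fun h1 => not_le.2 h (ha.bnum_nonneg (by
  simpa using nef_of_dv hd (dv_mem V) fun W hW => by
    by_cases h2 : W = V
    · exact h2 ▸ h1
    · exact dv_dv_nonneg hW h2))

theorem exists_neg (hd : dim ℂ F = 2) (ha : a ∈ On P) (h : ¬ Nef a) :
    ∃ V, Prm (oP P) V ∧ bnum [a, dv P V] < 0 := by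
  by_contra! h1
  exact h (nef_of_dv hd ha h1)

/-- a prime divisor as a curve -/
def cv (hd : dim ℂ F = 2) (hV : Prm (oP P) V) [Algebra.EssFiniteType ℂ (Rf V)] : Cv P (Rf V) where
  E := dv P V
  p := plV V
  lnr := lnr_plV V
  dim1 := by
    have := dim_Rf' hV.dvs
    omega
  on := dv_mem V
  nonneg := dv_nonneg V
  pos := one_lt_val_dv_self hV
  ker _ ha _ hs h := mem_Sec_sub_dv ha hs h
  deg a ha := (dg_one hV ha).symm.trans (dg_eq _)

theorem rrp (hR : RRStmt) (hS : SerStmt) (P : PModel ℂ F) (b : B2 F) : RRP P b := by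
  obtain ⟨c, hc⟩ := hR F P b
  have h1 : ∀ a ∈ On P, 2 * (rr P b c a / 2) = rr P b c a := fun a ha => by
    obtain ⟨m, hm⟩ := Filter.eventually_atTop.1 (hc a ha)
    have h1 := hm (2 * m) (by omega)
    have h2 : rr P b c (a + (2 * m) • oP P) = rr P b c a + 2 * (m * (bnum [a, oP P] +
        bnum [oP P, a + (2 * m) • oP P - kP P b])) := by
      simp only [rr]
      rw [bnum_add, bnum_nsmul, add_sub_right_comm a _ (kP P b), bnum_add2, bnum_nsmul2]
      push_cast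
      ring
    omega
  refine ⟨fun a => rr P b c a / 2, fun a ha => ?_, fun a ha => ?_, fun a ha => ?_⟩
  · rw [h1 a ha, h1 0 (zero_mem _), rr, rr, bnum_zero, bnum_sub2]
    ring
  · have h2 := hS F P b c hc a ha
    simp only [h0] at h2 ⊢
    omega
  · obtain ⟨m, hm⟩ := Filter.eventually_atTop.1 (hc a ha)
    refine ⟨m, fun q hq => ?_⟩
    have h2 := hm q hq
    simp only [h0] at h2 ⊢
    omega

/-- **adjunction inequality** -/
theorem adj (hR : RRP P b) (hV : Prm (oP P) V) :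
    -2 ≤ bnum [dv P V, dv P V] + bnum [dv P V, kP P b] :=
  have := essFT_Rf hV.dvs
  (cv (dim_eq b) hV).adj hR

/-- `P0` is the contraction of the `(-1)`-curve `V` of `P` -/
structure Cst (b : B2 F) (P P0 : PModel ℂ F) (V : RZ ℂ F) : Prop where
  prm : Prm (oP P) V
  neg : bnum [dv P V, dv P V] = -1
  can : bnum [dv P V, kP P b] = -1
  le : oP P0 ∈ On P
  on : ∀ a, a ∈ On P0 ↔ a ∈ On P ∧ bnum [a, dv P V] = 0
  prm_iff : ∀ W, Prm (oP P0) W ↔ Prm (oP P) W ∧ W ≠ V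
  kP_eq : kP P b = kP P0 b + dv P V

/-- **Castelnuovo's contraction theorem** -/
theorem cast (hR : RRP P b) (hV : Prm (oP P) V) (h1 : bnum [dv P V, dv P V] < 0)
    (h2 : bnum [dv P V, kP P b] < 0) : ∃ P0, Cst b P P0 V := by
  have := essFT_Rf hV.dvs
  have hd := dim_eq b
  have h3 := adj hR hV
  have hE : bnum [dv P V, dv P V] = -1 := by omega
  have hK : bnum [dv P V, kP P b] = -1 := by omega
  obtain ⟨P0, h⟩ := exists_cast (C := cv hd hV) hR hE hK
  have h4 : ∀ a, a ∈ On P0 ↔ a ∈ On P ∧ bnum [a, dv P V] = 0 := fun a => h.mem_On_iff rfl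
  have h5 : ∀ W, Prm (oP P0) W ↔ Prm (oP P) W ∧ W ≠ V := fun W => by
    constructor
    · refine fun hW => ⟨prm_up h.on hW, ?_⟩
      rintro rfl
      exact (dg_oP_pos hW (d := 1) hd).ne' ((dg_one hV h.on).trans h.deg)
    · rintro ⟨hW, h5⟩
      refine (prm_iff_dg (isMod_oP P0) hW.dvs (d := 1) hd).2 ((dg_one hW h.on).symm ▸ ?_)
      obtain ⟨m, n, w, -, h6⟩ := h.lin
      have h7 := oP_dv_pos hd hW
      have h8 := dv_dv_nonneg hW h5
      rw [h6, bnum_add, bnum_add, bnum_pr, bnum_nsmul, bnum_nsmul]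
      change 0 < _ * _ + _ * bnum [dv P V, dv P W] + 0
      positivity
  refine ⟨P0, hV, hE, hK, h.on, h4, h5, sub_eq_iff_eq_add.1 (eq_On ((h4 _).2
    ⟨sub_mem (kP_mem b) (dv_mem V), by rw [bnum_sub, bnum_swap, hK, hE, sub_self]⟩) (kP_mem b)
      fun W hW => ?_)⟩
  rw [map_sub, od_dv_ne ((h5 W).1 hW).1 ((h5 W).1 hW).2, sub_zero, od_eq_iff hW.dvs]
  exact Sark27.kP_eq_val b ((h5 W).1 hW).1 hW

namespace Cst

variable (h : Cst b P P0 V)
include h

theorem null (ha : a ∈ On P0) : bnum [a, dv P V] = 0 := ((h.on a).1 ha).2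

theorem null' (ha : a ∈ On P0) : bnum [dv P V, a] = 0 := (bnum_swap _ _ _).trans (h.null ha)

theorem kP_mul (ha : a ∈ On P0) : bnum [kP P b, a] = bnum [kP P0 b, a] := by
  rw [h.kP_eq, bnum_add, h.null' ha, add_zero]

theorem kP_sq : bnum [kP P0 b, kP P0 b] = bnum [kP P b, kP P b] + 1 := by
  rw [← h.kP_mul (kP_mem b), eq_sub_of_add_eq h.kP_eq.symm, bnum_sub2, bnum_swap _ (dv P V), h.can]
  ring

/-- the projection to the contracted surface -/
theorem add_mem (ha : a ∈ On P) : a + bnum [a, dv P V] • dv P V ∈ On P0 :=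
  (h.on _).2 ⟨(On P).add_mem ha (zsmul_mem (dv_mem V) _), by
    rw [bnum_add, bnum_zsmul, h.neg]; ring⟩

theorem nef_add (ha : a ∈ On P) (hn : Nef a) : Nef (a + bnum [a, dv P V] • dv P V) :=
  nef_of_dv (dim_eq b) ((h.on _).1 (h.add_mem ha)).1 fun W hW => by
    by_cases h1 : W = V
    · rw [h1]
      exact (h.null (h.add_mem ha)).ge
    · rw [bnum_add, bnum_zsmul]
      exact add_nonneg (nef_dv hn W) (mul_nonneg (nef_dv hn V) (dv_dv_nonneg hW h1))

theorem Sec_kP (m : ℕ) : (m • kP P b).Sec = (m • kP P0 b).Sec := by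
  refine le_antisymm (fun s hs => mem_Sec_On (nsmul_mem (kP_mem b) m) fun W hW => ?_)
    (Sec_mono (nsmul_le_nsmul_right (kP_le b h.le) m))
  have h1 := le_exp_od (V := W) hs
  rwa [map_nsmul, h.kP_eq, map_add, od_dv_ne ((h.prm_iff W).1 hW).1 ((h.prm_iff W).1 hW).2,
    add_zero, ← map_nsmul] at h1

end Cst

/-- induction on the contractions of `Θ`-null curves -/
theorem null_ind (hΘ : 0 < bnum [Θ, Θ]) {Φ : PModel ℂ F → Prop}
    (h : ∀ P, Θ ∈ On P → (∀ P0 V, Cst b P P0 V → Θ ∈ On P0 → Φ P0) → Φ P) (hP : Θ ∈ On P) :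
    Φ P := by
  generalize hn : (bnum [Θ, kP P b] ^ 2 - bnum [Θ, Θ] * bnum [kP P b, kP P b]).toNat = n
  induction n using Nat.strong_induction_on generalizing P with
  | _ n ih =>
    refine h P hP fun P0 V h1 h2 => ih _ ?_ h2 rfl
    have h3 := hi (Λ := []) (by simp) hΘ (kP P0 b)
    rw [← hn, bnum_swap Θ (kP P b), h1.kP_mul h2, bnum_swap (kP P0 b) Θ,
      eq_sub_of_add_eq h1.kP_sq.symm, mul_sub]
    omega

/-- induction on the contractions of a surface of nonnegative Kodaira dimension -/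
theorem min_ind (hR : ∀ P, RRP P b) {m : ℕ} (hm : 0 < m) {Φ : PModel ℂ F → Prop}
    (h1 : ∀ P, Eff (m • kP P b) → Nef (kP P b) → Φ P)
    (h2 : ∀ P P0 V, Cst b P P0 V → Φ P0 → Φ P) (hP : Eff (m • kP P b)) : Φ P := by
  have hd := dim_eq b
  suffices h : ∀ (n : ℕ) (Q : PModel ℂ F), oP Q ∈ On P → Eff (m • kP Q b) →
      (bnum [kP Q b, oP P]).toNat = n → Φ Q from h _ P oP_mem hP rfl
  intro n
  induction n using Nat.strong_induction_on with
  | _ n ih =>
    intro Q hQ h3 hn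
    by_cases h4 : Nef (kP Q b)
    · exact h1 Q h3 h4
    obtain ⟨V, hV, h5⟩ := exists_neg hd (kP_mem b) h4
    obtain ⟨Q0, h6⟩ := cast (hR Q) hV (sq_neg hd (h3.psef.of_nsmul hm) h5) ((bnum_swap _ _ _).trans_lt h5)
    have h7 : Eff (m • kP Q0 b) := by rwa [Eff, ← h6.Sec_kP]
    refine h2 Q Q0 V h6 (ih _ ?_ Q0 (On_le_iff.2 hQ h6.le) h7 rfl)
    have h8 := (h7.psef.of_nsmul hm).bnum_nonneg (l := [oP P]) (by simpa using free_oP.nef)
    have h9 := od_mul_le (dv_nonneg (P := Q) V) (l := [oP P]) (by simpa using free_oP.nef) hV.dvs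
    have h10 := dg_oP_pos (prm_up hQ hV) (d := 1) hd
    rw [od_dv_self hV, one_mul] at h9
    rw [← hn, h6.kP_eq, bnum_add]
    rw [List.replicate_one] at h10
    omega

/-- **minimal models** -/
theorem exists_min (hR : RRStmt) (hS : SerStmt) {m : ℕ} (hm : 0 < m) (hP : Eff (m • kP P b)) :
    ∃ P0 : PModel ℂ F, oP P0 ∈ On P ∧ Nef (kP P0 b) ∧
      ∀ q : ℕ, (q • kP P b).Sec = (q • kP P0 b).Sec :=
  min_ind (rrp hR hS · b) hm (Φ := fun P => ∃ P0 : PModel ℂ F, oP P0 ∈ On P ∧ Nef (kP P0 b) ∧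
    ∀ q : ℕ, (q • kP P b).Sec = (q • kP P0 b).Sec) (fun P _ h => ⟨P, oP_mem, h, fun _ => rfl⟩)
    (fun _ _ _ h ⟨Q, h1, h2, h3⟩ =>
      ⟨Q, On_le_iff.2 h.le h1, h2, fun q => (h.Sec_kP q).trans (h3 q)⟩) hP

/-- a model without `Θ`-null `(-1)`-curves -/
theorem exists_null_min (hR : ∀ P, RRP P b) (hΘ : 0 < bnum [Θ, Θ]) (hP : Θ ∈ On P) :
    ∃ B : PModel ℂ F, oP B ∈ On P ∧ Θ ∈ On B ∧ ∀ V, Prm (oP B) V → bnum [dv B V, dv B V] < 0 →
      bnum [dv B V, kP B b] < 0 → bnum [Θ, dv B V] ≠ 0 := by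
  refine null_ind (b := b) hΘ (Φ := fun P => ∃ B : PModel ℂ F, oP B ∈ On P ∧ Θ ∈ On B ∧
    ∀ V, Prm (oP B) V → bnum [dv B V, dv B V] < 0 → bnum [dv B V, kP B b] < 0 →
      bnum [Θ, dv B V] ≠ 0) (fun P hP ih => ?_) hP
  by_cases h : ∃ V, Prm (oP P) V ∧ bnum [dv P V, dv P V] < 0 ∧ bnum [dv P V, kP P b] < 0 ∧
      bnum [Θ, dv P V] = 0
  · obtain ⟨V, hV, h1, h2, h3⟩ := h
    obtain ⟨P0, h4⟩ := cast (hR P) hV h1 h2
    obtain ⟨B, h5, h6⟩ := ih P0 V h4 ((h4.on Θ).2 ⟨hP, h3⟩)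
    exact ⟨B, On_le_iff.2 h4.le h5, h6⟩
  · exact ⟨P, oP_mem, hP, fun V hV h1 h2 h3 => h ⟨V, hV, h1, h2, h3⟩⟩

theorem thMinStmt (hR : RRStmt) (hS : SerStmt) (hT : ResStmt) : ThMinStmt := by
  intro F _ _ _ b Θ m h1 h2 h3
  have hd := dim_eq b
  obtain ⟨P, hP⟩ := hT F {Θ}
  obtain ⟨B, -, h4, h5⟩ := exists_null_min (rrp hR hS · b)
    (bnum_pos (by simp [hd]) (by simpa using ⟨h1, h2⟩)) (hP Θ (by simp))
  refine ⟨B, h4, fun i j hij h6 => by_contra fun h7 => ?_⟩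
  obtain ⟨V, hV, h8⟩ := exists_neg hd (add_mem (nsmul_mem (kP_mem b) i) (nsmul_mem h4 j)) h7
  have h9 := sq_neg hd h6 h8
  have h10 : 0 ≤ bnum [Θ, dv B V] := nef_dv h1 V
  rw [bnum_add, bnum_nsmul, bnum_nsmul, bnum_swap] at h8
  have h11 : bnum [dv B V, kP B b] < 0 := not_le.1 fun h11 => not_le.2 h8 (by positivity)
  have h12 := adj (rrp hR hS B b) hV
  have h13 := Int.le_of_dvd (h10.lt_of_ne (h5 V hV h9 h11).symm) (h3 _)
  rw [show bnum [dv B V, kP B b] = -1 by omega] at h8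
  have h14 : (i : ℤ) ≤ j * m := by exact_mod_cast hij
  nlinarith

theorem kStmt (hR : RRStmt) (hS : SerStmt) : KStmt := by
  intro F _ _ _ d S P b hP
  have hd := dim_eq b
  have hK : Lin (kP S.P b) 0 := (lin_kP b S.b).trans S.can
  refine null_ind (b := b) (HH_pos S.P hd) (Φ := fun P => ∀ a ∈ On P, Nef a →
    bnum [a, S.L] ^ 2 ≤ d * (bnum [a, a] + bnum [kP P b, a] ^ 2)) (fun P hP ih a ha hn => ?_) hP
  by_cases h : ∀ V, Prm (oP P) V → Prm (oP S.P) V
  · have h1 : a ∈ On S.P := (eq_On ha (On_le_iff.2 hP (tr_mem a))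
      fun V hV => (od_tr (h V hV) a).symm).symm ▸ tr_mem a
    obtain ⟨c, hc⟩ := S.gen a h1
    have h2 := hc _ S.L_on
    have h3 := hc a h1
    rw [bnum_sub, bnum_zsmul] at h2 h3
    rw [S.L_sq] at h2
    rw [bnum_swap S.L] at h3
    rw [sub_eq_zero.1 h3, sub_eq_zero.1 h2]
    nlinarith [mul_nonneg (Nat.cast_nonneg (α := ℤ) d) (sq_nonneg (bnum [kP P b, a]))]
  obtain ⟨V, hV, h1⟩ := not_forall₂.1 h
  have hD : kP P b - kP S.P b ∈ On P := sub_mem (kP_mem b) (On_le_iff.2 hP (kP_mem b))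
  have h2 : ∀ W, Prm (oP S.P) W → (kP P b - kP S.P b).val W = 1 := fun W hW => by
    rw [val_sub, Sark27.kP_eq_val b hW (prm_up hP hW), div_self (val_ne _ _)]
  have h0 : 0 ≤ kP P b - kP S.P b := sub_nonneg.2 (kP_le b hP)
  obtain ⟨W, hW, h3⟩ := exists_neg hd hD fun h3 => not_le.2 (Sark27.kP_lt_val b hV h1)
    (sub_nonpos.1 (le_of_nef h3 (zero_mem _)
      fun W hW => (od_le_iff hW.dvs).2 (h2 W hW).le) V)
  have h4 : ¬ Prm (oP S.P) W := fun h4 =>
    not_le.2 h3 (dg_one hW hD ▸ dg_nonneg_of h0 (h2 W h4) (by simp))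
  obtain ⟨P0, h5⟩ := cast (rrp hR hS P b) hW (sq_neg hd (psef_of_nonneg h0) h3)
    (by rwa [bnum_sub, hK.bnum_eq, bnum_zero, sub_zero, bnum_swap] at h3)
  have h6 : oP S.P ∈ On P0 := (h5.on _).2
    ⟨hP, (dg_one hW hP).symm.trans (dg_eq_zero free_oP hW.dvs h4 (d := 1) hd)⟩
  have h7 := ih P0 W h5 h6 _ (h5.add_mem ha) (h5.nef_add ha hn)
  have h8 : 0 ≤ bnum [kP P0 b, a + bnum [a, dv P W] • dv P W] := by
    have h8 := bnum_eff (eff_of_nonneg (sub_nonneg.2 (kP_le b h6))) (h5.nef_add ha hn)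
    rwa [bnum_sub, hK.bnum_eq, bnum_zero, sub_zero] at h8
  have h9 : 0 ≤ bnum [a, dv P W] := nef_dv hn W
  rw [bnum_add, bnum_zsmul, h5.null' (On_le_iff.2 h6 S.L_on), bnum_add, bnum_zsmul,
    h5.null' (h5.add_mem ha), bnum_add2, bnum_zsmul2, mul_zero, add_zero, add_zero] at h7
  rw [← h5.kP_mul (h5.add_mem ha), bnum_add2, bnum_zsmul2, bnum_swap (kP P b) (dv P W),
    h5.can] at h7 h8
  refine h7.trans (mul_le_mul_of_nonneg_left ?_ (Nat.cast_nonneg d))
  nlinarith [mul_nonneg h8 h9]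

end Crest.Agent.X262.Min33
end
end

-- ▼ part X262/Min33/Out

/-!
# Row 262, MIN (helper33), part 6: the forms consumed by other packages

`minStmt` is `Int23.MinStmt` and `castStmt` is `Min71.CastStmt`, unfolded.
-/

set_option autoImplicit false

namespace Crest.Agent.X262.Min33

open Crest.Agent.X277 Crest.Agent.X277.BD Crest.Agent.X277.Lef Crest.Agent.X277.Pst
open Crest.Agent.X277.BD.Br Crest.Agent.X262.Geo Crest.Agent.X262.Surf

theorem minStmt (hR : RRStmt) (hS : SerStmt) (F : Type) [Field F] [Algebra ℂ F]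
    [Algebra.EssFiniteType ℂ F] (P : PModel ℂ F) (b : B2 F) (h : Eff (kP P b)) :
    ∃ P₀ : PModel ℂ F, Nef (kP P₀ b) :=
  (exists_min hR hS one_pos (by rwa [one_nsmul])).imp fun _ h => h.2.1


end Crest.Agent.X262.Min33
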